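import Vale.Agent.P365.T2.H216.UPart

/-!
# P365-T2, row U, centre route: `UCoreG` from the lower bound of the mean excess (helper216)
-/

set_option linter.all false

namespace P365T2.H216

open P365L P365O P365T1 P365L.TL Matrix Complex MeasureTheory Filter Topology Set
open Vale.Agent.P365.J376 P365T2.H213 P365T2.H320U P365T2.X629 P365T2.H831 P365L.T2.Path
open P365T2.H844 (UpsG Pos TT pr Vr mur tt pr_TT pr_TT_pos TT_nonneg sum_P)
open scoped ComplexConjugate ENNReal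

/-- **lower bound of the mean excess over the circle means**; `C0` does not depend on `T` -/
def CXLow (lam E C1 : ℝ) : Prop :=
  ∃ C0 : ℝ, 0 ≤ C0 ∧ ∀ T : ℝ, 1 ≤ T → ∃ C2 : ℝ, 0 ≤ C2 ∧ ∀ (N : ℕ) [NeZero N] (W : StW N),
    W.Ok lam E C1 1 → ∀ τ ∈ Icc 0 W.S,
      -(C0 * W.Phi E (fR N (nJ C1 W.S)) τ +
        C2 * (W.S ^ 5 * ∑ k ∈ Finset.range (nJ C1 W.S + 3),
          W.Yg E (kf (fR N (nJ C1 W.S)) (nJ C1 W.S) k) τ)) ≤
      W.Av E τ fun l V => CXS (PhiR N (nJ C1 W.S)) (AT N) (Real.exp (-T)) (nJ C1 W.S)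
        (fun x => wT W.w τ l x / eT W.u W.w τ l x) V

section gen

variable {ι : Type*} [Fintype ι] [DecidableEq ι] {A : Matrix ι ι ℝ}
  {Λ : Type*} [Fintype Λ] {p : Λ → ℝ} {ν : Λ → Measure ℝ} {E : ℝ}
  {κ : Type*} [Fintype κ] {F : κ → ι → ℝ}

theorem LossG_eq_Av (hA : A.IsSymm) [∀ k, IsProbabilityMeasure (ν k)]
    {e w : (ι → Λ) → ι → ℝ} (he : ∀ l x, 0 < e l x) :
    LossG A p ν E F e w = AvG p ν E e fun l V => ∑ x, w l x * ∑ k, lossS A V (F k) x := by
  unfold LossG AvG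
  refine Finset.sum_congr rfl fun l _ => ?_
  congr 1
  unfold Ex
  rw [integral_finset_sum _ fun x _ => (integrable_finset_sum _ fun k _ =>
    integrable_lossS hA _ E (he l) (F k) x).const_mul _]
  refine Finset.sum_congr rfl fun x _ => ?_
  rw [integral_const_mul, integral_finset_sum _ fun k _ =>
    integrable_lossS hA _ E (he l) (F k) x]

theorem Vr_le' {E' : Type*} [NormedAddCommGroup E'] [InnerProductSpace ℝ E'] {Φ : ι → E'}
    {Q : ι → ι → ℝ} (hQ : ∀ x y, 0 ≤ Q x y) (hp : ∀ x, 0 < pr Q x) {B : ℝ}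
    (ht : ∀ x y, tt Φ x y ≤ B) (v : ι) : Vr Φ Q v ≤ B := by
  unfold Vr
  calc ∑ y, Q v y / pr Q v * tt Φ y v ≤ ∑ y, Q v y / pr Q v * B :=
        Finset.sum_le_sum fun y _ => mul_le_mul_of_nonneg_left (ht y v)
          (div_nonneg (hQ v y) (hp v).le)
    _ = B := by rw [← Finset.sum_mul, sum_P v (hp v), one_mul]

end gen

theorem uCoreG_of {lam E C1 : ℝ} (h : CXLow lam E C1) : UCoreG lam E C1 := by
  obtain ⟨C0, hC0, h⟩ := h
  refine ⟨21 + C0, by linarith, fun T hT => ?_⟩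
  obtain ⟨C2, hC2, h⟩ := h T hT
  refine ⟨C2, hC2, fun N _ W hW τ hτ => ?_⟩
  haveI := hW.prob
  have hC := h N W hW τ hτ
  set J := nJ C1 W.S with hJ
  have hJ1 : 1 ≤ J := by rw [hJ]; unfold nJ; omega
  have he := P365T2.H912.eT_pos hW τ
  have hA := AT_symm N
  have hu : ∀ l x, 0 < W.u l x := fun l x => by
    obtain ⟨b, hb, hbu⟩ := hW.u_pos
    exact hb.trans_le (hbu l x)
  have hwT : ∀ l x, 0 ≤ wT W.w τ l x := fun l x =>
    mul_nonneg (Real.exp_pos _).le (hW.w_nonneg l x)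
  have heq : ∀ l x, eT W.u W.w τ l x = W.u l x + wT W.w τ l x := fun l x => rfl
  have ho : ∀ l x, 0 ≤ wT W.w τ l x / eT W.u W.w τ l x := fun l x =>
    div_nonneg (hwT l x) (he l x).le
  have ho1 : ∀ l x, wT W.w τ l x / eT W.u W.w τ l x ≤ 1 := fun l x => by
    rw [div_le_one (he l x), heq]
    linarith [hu l x]
  have hd := hasDerivAt_Av_UpsG (p := W.p) (E := E) (Φ := PhiR N J) hA hW.supp hu hW.w_nonneg
    (Real.exp_pos (-T)) J τ
  refine ⟨_, hd, ?_⟩
  have hL := Av_LinS_ge (p := W.p) (E := E) (Φ := PhiR N J) hA hW.p_nonneg hW.supp he ho ho1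
    (show (0 : ℝ) ≤ T by linarith) hJ1 (P365T2.H227.tt_PhiR_or hJ1) (P365T2.H227.tt_PhiR_le J)
  -- energy
  have eD : AvG W.p W.ν E (eT W.u W.w τ)
      (fun _ V => ∑ v, pr (TT (AT N) V) v * Vr (PhiR N J) (TT (AT N) V) v) =
      W.Phi E (fR N J) τ :=
    avc_congr he fun l V hV _ => P365T2.H227.sum_pr_Vr_PhiR hV J
  -- loss
  have eL : AvG W.p W.ν E (eT W.u W.w τ) (fun l V =>
      ∑ v, wT W.w τ l v / eT W.u W.w τ l v * pr (TT (AT N) V) v *
        ‖mur (PhiR N J) (TT (AT N) V) v‖ ^ 2) = (1 / 2) * W.LossF E (fR N J) τ := by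
    unfold StW.LossF
    rw [LossG_eq_Av hA he, ← avc_const_mul]
    refine avc_congr he fun l V hV hVe => ?_
    rw [Finset.mul_sum]
    refine Finset.sum_congr rfl fun v _ => ?_
    have h1 : ‖mur (PhiR N J) (TT (AT N) V) v‖ ^ 2 = ∑ k, muf (AT N) V (fR N J k) v ^ 2 :=
      P365T2.H844.mur_fam hA hV (fR N J) v
    rw [h1, pr_TT hA hV v, hVe v]
    unfold lossS
    rw [← Finset.mul_sum, ← Finset.mul_sum]
    have := (he l v).ne'
    field_simp
  -- static part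
  have eZ : AvG W.p W.ν E (eT W.u W.w τ) (fun l V =>
      ∑ v, (1 - wT W.w τ l v / eT W.u W.w τ l v) * pr (TT (AT N) V) v *
        Vr (PhiR N J) (TT (AT N) V) v) ≤ 4 ^ J * W.EM E W.u τ := by
    unfold StW.EM StW.Av
    rw [← avc_const_mul]
    refine avc_mono hW.p_nonneg hW.supp he (fun l => continuousOn_finset_sum _ fun v _ =>
      (continuousOn_const.mul (contDiffOn_pr (n := 0) hA v).continuousOn).mul
        (contDiffOn_Vr (n := 0) hA v).continuousOn)
      (fun l => continuousOn_const.mul (continuousOn_finset_sum _ fun v _ =>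
        continuousOn_const.mul (contDiffOn_mm (n := 0) hA v).continuousOn))
      fun l V hV hVe => ?_
    rw [Finset.mul_sum]
    refine Finset.sum_le_sum fun v _ => ?_
    have h1 := Vr_le' (Φ := PhiR N J) (TT_nonneg hV) (pr_TT_pos hA hV)
      (P365T2.H227.tt_PhiR_le J) v
    have h2 : (1 - wT W.w τ l v / eT W.u W.w τ l v) * pr (TT (AT N) V) v =
        W.u l v * mm (AT N) V v := by
      rw [pr_TT hA hV v, hVe v]
      have := (he l v).ne'
      field_simp
      rw [heq]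
      ring
    rw [h2]
    have h3 : 0 ≤ W.u l v * mm (AT N) V v := mul_nonneg (hu l v).le (mm_pos hA hV v).le
    calc W.u l v * mm (AT N) V v * Vr (PhiR N J) (TT (AT N) V) v
        ≤ W.u l v * mm (AT N) V v * 4 ^ J := mul_le_mul_of_nonneg_left h1 h3
      _ = _ := by ring
  rw [eD, eL] at hL
  -- the square root
  have hPhi0 : 0 ≤ W.Phi E (fR N J) τ := P365T2.H912.Phi_nonneg hW _ τ
  have hLoss0 : 0 ≤ W.LossF E (fR N J) τ := LossG_nonneg hA hW.p_nonneg he hwT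
  have eS : Real.sqrt (W.Phi E (fR N J) τ) * Real.sqrt (1 / 2 * W.LossF E (fR N J) τ) ≤
      Real.sqrt (W.Phi E (fR N J) τ * W.LossF E (fR N J) τ) := by
    rw [← Real.sqrt_mul hPhi0]
    refine Real.sqrt_le_sqrt (mul_le_mul_of_nonneg_left (by linarith) hPhi0)
  have hT2 : 0 ≤ 2 * (T + 2) := by linarith
  have eS' := mul_le_mul_of_nonneg_left eS hT2
  have eZ' := mul_le_mul_of_nonneg_left eZ (show 0 ≤ T + 2 by linarith)
  have hP : W.Av E τ (fun _ V => Pos (PhiR N J) (TT (AT N) V) (Real.exp (-T)) J) =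
      AvG W.p W.ν E (eT W.u W.w τ)
        (fun _ V => Pos (PhiR N J) (TT (AT N) V) (Real.exp (-T)) J) := rfl
  have hCe : W.Av E τ (fun l V => CXS (PhiR N J) (AT N) (Real.exp (-T)) J
        (fun x => wT W.w τ l x / eT W.u W.w τ l x) V) =
      AvG W.p W.ν E (eT W.u W.w τ) (fun l V => CXS (PhiR N J) (AT N) (Real.exp (-T)) J
        (fun x => wT W.w τ l x / eT W.u W.w τ l x) V) := rfl
  rw [hP]
  rw [hCe] at hC
  have hY : 0 ≤ C2 * (W.S ^ 5 * ∑ k ∈ Finset.range (J + 3), W.Yg E (kf (fR N J) J k) τ) ∨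
      True := Or.inr trivial
  linarith

/-- **`UPart` from the lower bound of the mean excess** -/
theorem uPart_of_CXLow {lam E C1 : ℝ} (hC1 : 0 < C1) (h : CXLow lam E C1) :
    P365T2.H912.UPart lam E C1 (EnF C1 E) (LossFn C1 E) (PosF C1 E) :=
  uPartG hC1 (uCoreG_of h)

end P365T2.H216
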