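import Vale.Agent.P365.T2.H24.K4

/-!
# P365-T2, field `res`: moving part and static part of `∑ e_x m_x mu_x ^ 2` (helper216)

For `e = u + wT` the sum `∑_x e_x m_x ∑_k mu_k(x) ^ 2` is exactly half of the loss in direction
`wT` plus the static part, and the static part is at most the static share `ShS`.
-/

set_option linter.all false

namespace P365T2.H216

open P365L P365O P365T1 P365L.TL P365T2.H213 P365T2.H24 Matrix Complex MeasureTheory Filter
open Topology Set Vale.Agent.P365.J376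
open scoped ComplexConjugate ENNReal

section gen

variable {ι : Type*} [Fintype ι] [DecidableEq ι] {A : Matrix ι ι ℝ}
  {Λ : Type*} [Fintype Λ] {p : Λ → ℝ} {ν : Λ → Measure ℝ} {E : ℝ}
  {κ : Type*} [Fintype κ] {F : κ → ι → ℝ}

/-- `∑ e_x m_x ∑ mu ^ 2`, all sites -/
noncomputable def resS (A : Matrix ι ι ℝ) (F : κ → ι → ℝ) (V : ι → ℂ) : ℝ :=
  ∑ x, (-(V x).im) * ∑ k, mm A V x * muf A V (F k) x ^ 2

theorem resS_nonneg (hA : A.IsSymm) {V : ι → ℂ} (hV : ∀ x, (V x).im < 0) : 0 ≤ resS A F V :=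
  Finset.sum_nonneg fun x _ => mul_nonneg (by linarith [hV x])
    (Finset.sum_nonneg fun k _ => mul_nonneg (mm_pos hA hV x).le (sq_nonneg _))

/-- pathwise: `∑ w_x ∑ lossS + ∑ u_x ∑ lossS = 2 resS` -/
theorem two_resS {V : ι → ℂ} {w u : ι → ℝ} (h : ∀ x, -(V x).im = w x + u x) :
    2 * resS A F V = (∑ x, w x * ∑ k, lossS A V (F k) x) + ∑ x, u x * ∑ k, lossS A V (F k) x := by
  unfold resS lossS
  rw [Finset.mul_sum, ← Finset.sum_add_distrib]
  refine Finset.sum_congr rfl fun x _ => ?_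
  rw [h, ← Finset.mul_sum (s := Finset.univ) (f := fun k => mm A V x * muf A V (F k) x ^ 2)]
  ring

/-- pathwise: moving part plus static share -/
theorem resS_le (hA : A.IsSymm) {V : ι → ℂ} (hV : ∀ x, (V x).im < 0) {w u : ι → ℝ}
    (h : ∀ x, -(V x).im = w x + u x) (hu : ∀ x, 0 ≤ u x) :
    resS A F V ≤ (∑ x, w x * ∑ k, lossS A V (F k) x) / 2 + ∑ x, u x * ∑ k, Mf A V (F k) x := by
  have h1 := two_resS (A := A) (F := F) h
  have h2 : ∑ x, u x * ∑ k, lossS A V (F k) x ≤ 2 * ∑ x, u x * ∑ k, Mf A V (F k) x := by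
    rw [Finset.mul_sum]
    refine Finset.sum_le_sum fun x _ => ?_
    have h4 : ∑ k, lossS A V (F k) x ≤ 2 * ∑ k, Mf A V (F k) x := by
      rw [Finset.mul_sum]
      exact Finset.sum_le_sum fun k _ => lossS_le hA hV (F k) x
    have h5 := mul_le_mul_of_nonneg_left h4 (hu x)
    linarith
  linarith

/-- the mean of the moving part and of the static part -/
theorem AvG_resS_le (hA : A.IsSymm) [∀ k, IsProbabilityMeasure (ν k)] (hp : ∀ k, 0 ≤ p k)
    {e w u : (ι → Λ) → ι → ℝ} (he : ∀ l x, 0 < e l x) (hu : ∀ l x, 0 ≤ u l x)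
    (h : ∀ l x, e l x = w l x + u l x) :
    AvG p ν E e (fun _ V => resS A F V) ≤ LossG A p ν E F e w / 2 +
      AvG p ν E e (fun l V => ∑ x, u l x * ∑ k, Mf A V (F k) x) := by
  unfold AvG LossG
  rw [Finset.sum_div, ← Finset.sum_add_distrib]
  refine Finset.sum_le_sum fun l _ => ?_
  have hpr : 0 ≤ ∏ x, p (l x) := Finset.prod_nonneg fun x _ => hp _
  rw [mul_div_assoc, ← mul_add]
  refine mul_le_mul_of_nonneg_left ?_ hpr
  have hL : ∀ g : ι → ℝ, Integrable (fun v => ∑ x, g x * ∑ k, lossS A (WV E (e l) v) (F k) x)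
      (Measure.pi fun x => ν (l x)) := fun g =>
    integrable_finset_sum _ fun x _ => (integrable_finset_sum _ fun k _ =>
      integrable_lossS hA _ E (he l) (F k) x).const_mul _
  have hM : Integrable (fun v => ∑ x, u l x * ∑ k, Mf A (WV E (e l) v) (F k) x)
      (Measure.pi fun x => ν (l x)) :=
    integrable_finset_sum _ fun x _ => (integrable_finset_sum _ fun k _ =>
      integrable_Mf hA _ E (he l) (F k) x).const_mul _
  have him : ∀ v x, -((WV E (e l) v) x).im = w l x + u l x := fun v x => by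
    rw [WV_im' E (e l) v x, h]
  have hR : Integrable (fun v => resS A F (WV E (e l) v)) (Measure.pi fun x => ν (l x)) := by
    refine (((hL (w l)).add (hL (u l))).div_const 2).congr (Eventually.of_forall fun v => ?_)
    have := two_resS (A := A) (F := F) (him v)
    simp only [Pi.add_apply]
    linarith
  have h3 : ∑ x, w l x * ∑ k, Ex (fun x => ν (l x)) E (e l) (fun W => lossS A W (F k) x) =
      ∫ v, ∑ x, w l x * ∑ k, lossS A (WV E (e l) v) (F k) x ∂(Measure.pi fun x => ν (l x)) := by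
    rw [integral_finset_sum _ fun x _ => (integrable_finset_sum _ fun k _ =>
      integrable_lossS hA _ E (he l) (F k) x).const_mul _]
    refine Finset.sum_congr rfl fun x _ => ?_
    rw [integral_const_mul, integral_finset_sum _ fun k _ =>
      integrable_lossS hA _ E (he l) (F k) x]
    rfl
  rw [h3]
  unfold Ex
  rw [← integral_div, ← integral_add ((hL (w l)).div_const 2) hM]
  exact integral_mono hR (((hL (w l)).div_const 2).add hM) fun v =>
    resS_le hA (WV_neg (he l) v) (him v) (hu l)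

end gen

section stw

variable {N : ℕ} [NeZero N] {W : StW N} {lam E C1 η : ℝ}

/-- **moving part + static share** of `Av ∑ e_x m_x ∑ mu ^ 2` in a stage -/
theorem res_split (h : W.Ok lam E C1 η) (τ : ℝ) {κ : Type} [Fintype κ] (F : κ → Tor N → ℝ) :
    W.Av E τ (fun _ V => resS (AT N) F V) ≤ W.LossF E F τ / 2 + ShS W E F τ := by
  haveI := h.prob
  exact AvG_resS_le (AT_symm N) h.p_nonneg (w := wT W.w τ) (u := W.u) (eT_pos h τ) (u_nonneg h)
    fun l x => by
      unfold eT wT
      ring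

/-- with the static share made explicit -/
theorem res_split' (h : W.Ok lam E C1 η) (hη : 0 < η) (hη1 : C1 + 2 ≤ 1 / η) (hS : 0 ≤ W.S)
    {τ : ℝ} (hτ : τ ∈ Set.Icc 0 W.S) {κ : Type} [Fintype κ] {F : κ → Tor N → ℝ} {L : ℝ}
    (hL : 0 < L) (hF : ∀ x y, ∑ k, (F k y - F k x) ^ 2 ≤ L * dsq x y) :
    W.Av E τ (fun _ V => resS (AT N) F V) ≤ W.LossF E F τ / 2 +
      2 * L * Real.exp (-W.S) * (N : ℝ) ^ 2 := by
  have h1 := res_split h τ F
  have h2 := shS_small h hη hη1 hS hτ hL hF
  linarith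

end stw

end P365T2.H216
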