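import Mathlib

/-!
# P365 T2, one circle: `∫_{-1}^{1} |T|² |G|⁴ ≥ c |T|² |G|⁴` for degree-one trig polynomials.

`ξ(x) = 1/(x - i)`; `T = α + β ξ + β' conj ξ`, `G = g₀ + g₁ ξ`.
-/

set_option linter.all false

namespace P365T2.H216

open MeasureTheory Complex Set
open scoped ComplexConjugate Real

/-- `ξ(x) = 1/(x - i)` -/
noncomputable def xi (x : ℝ) : ℂ := ((x : ℂ) - I)⁻¹

theorem sub_I_ne (x : ℝ) : (x : ℂ) - I ≠ 0 := by
  intro h
  have := congrArg Complex.im h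
  simp at this

theorem add_I_ne (x : ℝ) : (x : ℂ) + I ≠ 0 := by
  intro h
  have := congrArg Complex.im h
  simp at this

theorem continuous_xi : Continuous xi :=
  (Complex.continuous_ofReal.sub continuous_const).inv₀ sub_I_ne

theorem conj_xi (x : ℝ) : conj (xi x) = ((x : ℂ) + I)⁻¹ := by
  rw [xi, map_inv₀, map_sub, Complex.conj_ofReal, Complex.conj_I, sub_neg_eq_add]

theorem norm_xi_le (x : ℝ) : ‖xi x‖ ≤ 1 := by
  rw [xi, norm_inv]
  refine inv_le_one_of_one_le₀ ?_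
  have h := Complex.abs_im_le_norm ((x : ℂ) - I)
  simpa using h

/-- `T = α + β ξ + β' conj ξ` -/
noncomputable def TT (a b b' : ℂ) (x : ℝ) : ℂ := a + b * xi x + b' * conj (xi x)

/-- `G = g₀ + g₁ ξ` -/
noncomputable def GG (g0 g1 : ℂ) (x : ℝ) : ℂ := g0 + g1 * xi x

theorem continuous_TT (a b b' : ℂ) : Continuous (TT a b b') :=
  (continuous_const.add (continuous_const.mul continuous_xi)).add
    (continuous_const.mul (Complex.continuous_conj.comp continuous_xi))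

theorem continuous_GG (g0 g1 : ℂ) : Continuous (GG g0 g1) :=
  continuous_const.add (continuous_const.mul continuous_xi)

/-- the integral -/
noncomputable def JJ (a b b' g0 g1 : ℂ) : ℝ :=
  ∫ x in (-1 : ℝ)..1, ‖TT a b b' x‖ ^ 2 * ‖GG g0 g1 x‖ ^ 4

open Polynomial in
theorem zero_of_prod {a b b' g0 g1 : ℂ} (h : ∀ x ∈ Icc (-1 : ℝ) 1, TT a b b' x * GG g0 g1 x = 0) :
    (a = 0 ∧ b = 0 ∧ b' = 0) ∨ (g0 = 0 ∧ g1 = 0) := by
  set p : ℂ[X] := C a * (X ^ 2 + 1) + C b * (X + C I) + C b' * (X - C I) with hp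
  set q : ℂ[X] := C g0 * (X - C I) + C g1 with hq
  have h1 : ∀ x : ℝ, x ∈ Icc (-1 : ℝ) 1 → (p * q).IsRoot (x : ℂ) := by
    intro x hx
    have h2 := h x hx
    have e1 : p.eval (x : ℂ) = TT a b b' x * ((x : ℂ) ^ 2 + 1) := by
      have e0 : (x : ℂ) ^ 2 + 1 = ((x : ℂ) - I) * ((x : ℂ) + I) := by
        linear_combination Complex.I_mul_I
      simp only [hp, eval_add, eval_mul, eval_C, eval_pow, eval_X, eval_one, eval_sub]
      rw [TT, conj_xi, xi, e0]
      have := sub_I_ne x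
      have := add_I_ne x
      field_simp
    have e2 : q.eval (x : ℂ) = GG g0 g1 x * ((x : ℂ) - I) := by
      simp only [hq, eval_add, eval_mul, eval_C, eval_X, eval_sub]
      rw [GG, xi]
      have := sub_I_ne x
      field_simp
    rw [IsRoot, eval_mul, e1, e2]
    linear_combination ((x : ℂ) ^ 2 + 1) * ((x : ℂ) - I) * h2
  have h3 : p * q = 0 := by
    refine eq_zero_of_infinite_isRoot _ ?_
    refine Set.Infinite.mono (s := (fun x : ℝ => (x : ℂ)) '' Icc (-1 : ℝ) 1) ?_ ?_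
    · rintro _ ⟨x, hx, rfl⟩
      exact h1 x hx
    · refine Set.Infinite.image (Complex.ofReal_injective.injOn) ?_
      exact Set.Icc_infinite (by norm_num)
  rcases mul_eq_zero.1 h3 with h4 | h4
  · left
    have c0 := congrArg (fun r : ℂ[X] => r.eval 0) h4
    have c1 := congrArg (fun r : ℂ[X] => r.eval I) h4
    have c2 := congrArg (fun r : ℂ[X] => r.eval (-I)) h4
    simp only [hp, eval_add, eval_mul, eval_C, eval_pow, eval_X, eval_one, eval_sub, eval_zero,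
      Complex.I_sq, neg_sq] at c0 c1 c2
    have hb : b = 0 := by
      have : b * (2 * I) = 0 := by linear_combination c1
      exact (mul_eq_zero.1 this).resolve_right (mul_ne_zero two_ne_zero Complex.I_ne_zero)
    have hb' : b' = 0 := by
      have : b' * (-(2 * I)) = 0 := by linear_combination c2
      exact (mul_eq_zero.1 this).resolve_right
        (neg_ne_zero.2 (mul_ne_zero two_ne_zero Complex.I_ne_zero))
    refine ⟨?_, hb, hb'⟩
    rw [hb, hb'] at c0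
    linear_combination c0
  · right
    have c0 := congrArg (fun r : ℂ[X] => r.eval 0) h4
    have c1 := congrArg (fun r : ℂ[X] => r.eval I) h4
    simp only [hq, eval_add, eval_mul, eval_C, eval_X, eval_sub, eval_zero] at c0 c1
    have hg1 : g1 = 0 := by linear_combination c1
    refine ⟨?_, hg1⟩
    rw [hg1] at c0
    have : g0 * (-I) = 0 := by linear_combination c0
    exact (mul_eq_zero.1 this).resolve_right (neg_ne_zero.2 Complex.I_ne_zero)

theorem JJ_nonneg (a b b' g0 g1 : ℂ) : 0 ≤ JJ a b b' g0 g1 :=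
  intervalIntegral.integral_nonneg (by norm_num) fun x _ => by positivity

theorem JJ_pos {a b b' g0 g1 : ℂ} (h1 : ¬(a = 0 ∧ b = 0 ∧ b' = 0)) (h2 : ¬(g0 = 0 ∧ g1 = 0)) :
    0 < JJ a b b' g0 g1 := by
  refine lt_of_le_of_ne (JJ_nonneg _ _ _ _ _) fun h0 => ?_
  have hc : Continuous fun x => ‖TT a b b' x‖ ^ 2 * ‖GG g0 g1 x‖ ^ 4 :=
    ((continuous_TT a b b').norm.pow 2).mul ((continuous_GG g0 g1).norm.pow 4)
  have h3 : ∀ x ∈ Icc (-1 : ℝ) 1, TT a b b' x * GG g0 g1 x = 0 := by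
    by_contra hne
    push Not at hne
    obtain ⟨x, hx, hx0⟩ := hne
    have hpos : 0 < ∫ x in (-1 : ℝ)..1, ‖TT a b b' x‖ ^ 2 * ‖GG g0 g1 x‖ ^ 4 := by
      refine intervalIntegral.integral_pos (by norm_num) hc.continuousOn
        (fun y _ => by positivity) ⟨x, hx, ?_⟩
      have e1 := norm_pos_iff.2 (left_ne_zero_of_mul hx0)
      have e2 := norm_pos_iff.2 (right_ne_zero_of_mul hx0)
      positivity
    rw [JJ] at h0
    linarith
  rcases zero_of_prod h3 with h4 | h4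
  · exact h1 h4
  · exact h2 h4

theorem continuous_JJ : Continuous fun v : ℂ × ℂ × ℂ × ℂ × ℂ =>
    JJ v.1 v.2.1 v.2.2.1 v.2.2.2.1 v.2.2.2.2 := by
  unfold JJ
  refine intervalIntegral.continuous_parametric_intervalIntegral_of_continuous'
    (f := fun (v : ℂ × ℂ × ℂ × ℂ × ℂ) (x : ℝ) =>
      ‖TT v.1 v.2.1 v.2.2.1 x‖ ^ 2 * ‖GG v.2.2.2.1 v.2.2.2.2 x‖ ^ 4) ?_ (-1) 1
  unfold TT GG
  have hx : Continuous fun v : (ℂ × ℂ × ℂ × ℂ × ℂ) × ℝ => xi v.2 := continuous_xi.comp continuous_snd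
  have hx' : Continuous fun v : (ℂ × ℂ × ℂ × ℂ × ℂ) × ℝ => conj (xi v.2) :=
    Complex.continuous_conj.comp hx
  simp only [Function.uncurry_def]
  fun_prop

theorem JJ_homog (s t : ℝ) (a b b' g0 g1 : ℂ) :
    JJ (s * a) (s * b) (s * b') (t * g0) (t * g1) = s ^ 2 * t ^ 4 * JJ a b b' g0 g1 := by
  unfold JJ
  rw [← intervalIntegral.integral_const_mul]
  refine intervalIntegral.integral_congr fun x _ => ?_
  have e1 : TT (s * a) (s * b) (s * b') x = s * TT a b b' x := by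
    unfold TT
    ring
  have e2 : GG (t * g0) (t * g1) x = t * GG g0 g1 x := by
    unfold GG
    ring
  simp only [e1, e2, norm_mul, Complex.norm_real, mul_pow]
  rw [Real.norm_eq_abs, Real.norm_eq_abs, sq_abs]
  have : |t| ^ 4 = t ^ 4 := by
    have h4 : |t| ^ 4 = (|t| ^ 2) ^ 2 := by ring
    rw [h4, sq_abs]
    ring
  rw [this]
  ring

/-- squared size of `T` -/
noncomputable def nT (a b b' : ℂ) : ℝ := ‖a‖ ^ 2 + ‖b‖ ^ 2 + ‖b'‖ ^ 2
/-- squared size of `G` -/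
noncomputable def nG (g0 g1 : ℂ) : ℝ := ‖g0‖ ^ 2 + ‖g1‖ ^ 2

/-- the compactness constant -/
theorem exists_c6 : ∃ c : ℝ, 0 < c ∧ ∀ a b b' g0 g1 : ℂ,
    c * (nT a b b' * nG g0 g1 ^ 2) ≤ JJ a b b' g0 g1 := by
  set K : Set (ℂ × ℂ × ℂ × ℂ × ℂ) := {v | nT v.1 v.2.1 v.2.2.1 = 1 ∧ nG v.2.2.2.1 v.2.2.2.2 = 1}
    with hK
  have hKc : IsCompact K := by
    refine Metric.isCompact_of_isClosed_isBounded ?_ ?_
    · refine IsClosed.inter ?_ ?_
      · refine isClosed_eq ?_ continuous_const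
        unfold nT
        fun_prop
      · refine isClosed_eq ?_ continuous_const
        unfold nG
        fun_prop
    · refine (Metric.isBounded_iff_subset_closedBall (0 : ℂ × ℂ × ℂ × ℂ × ℂ)).2 ⟨1, ?_⟩
      rintro ⟨a, b, b', g0, g1⟩ ⟨h1, h2⟩
      simp only [nT, nG] at h1 h2
      rw [mem_closedBall_zero_iff]
      have key : ∀ r : ℝ, 0 ≤ r → r ^ 2 ≤ 1 → r ≤ 1 := fun r h0 h => by nlinarith
      have k1 := key _ (norm_nonneg a) (by nlinarith [sq_nonneg ‖b‖, sq_nonneg ‖b'‖])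
      have k2 := key _ (norm_nonneg b) (by nlinarith [sq_nonneg ‖a‖, sq_nonneg ‖b'‖])
      have k3 := key _ (norm_nonneg b') (by nlinarith [sq_nonneg ‖a‖, sq_nonneg ‖b‖])
      have k4 := key _ (norm_nonneg g0) (by nlinarith [sq_nonneg ‖g1‖])
      have k5 := key _ (norm_nonneg g1) (by nlinarith [sq_nonneg ‖g0‖])
      simp only [Prod.norm_def, sup_le_iff]
      exact ⟨k1, k2, k3, k4, k5⟩
  have hKn : K.Nonempty := ⟨(1, 0, 0, 1, 0), by simp [hK, nT, nG]⟩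
  obtain ⟨v0, hv0, hmin⟩ := hKc.exists_isMinOn hKn continuous_JJ.continuousOn
  refine ⟨JJ v0.1 v0.2.1 v0.2.2.1 v0.2.2.2.1 v0.2.2.2.2, ?_, ?_⟩
  · refine JJ_pos ?_ ?_
    · rintro ⟨h1, h2, h3⟩
      have := hv0.1
      simp [nT, h1, h2, h3] at this
    · rintro ⟨h1, h2⟩
      have := hv0.2
      simp [nG, h1, h2] at this
  · intro a b b' g0 g1
    have hT0 : 0 ≤ nT a b b' := by unfold nT; positivity
    have hG0 : 0 ≤ nG g0 g1 := by unfold nG; positivity
    rcases eq_or_lt_of_le hT0 with hT | hT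
    · rw [← hT, zero_mul, mul_zero]
      exact JJ_nonneg _ _ _ _ _
    rcases eq_or_lt_of_le hG0 with hG | hG
    · rw [← hG, zero_pow two_ne_zero, mul_zero, mul_zero]
      exact JJ_nonneg _ _ _ _ _
    set s := Real.sqrt (nT a b b') with hs
    set t := Real.sqrt (nG g0 g1) with ht
    have hs0 : 0 < s := Real.sqrt_pos.2 hT
    have ht0 : 0 < t := Real.sqrt_pos.2 hG
    have hs2 : s ^ 2 = nT a b b' := Real.sq_sqrt hT0
    have ht2 : t ^ 2 = nG g0 g1 := Real.sq_sqrt hG0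
    have hsn : ‖((s⁻¹ : ℝ) : ℂ)‖ = s⁻¹ := by
      rw [Complex.norm_real, Real.norm_eq_abs, abs_of_pos (inv_pos.2 hs0)]
    have htn : ‖((t⁻¹ : ℝ) : ℂ)‖ = t⁻¹ := by
      rw [Complex.norm_real, Real.norm_eq_abs, abs_of_pos (inv_pos.2 ht0)]
    have hmem : (((s⁻¹ : ℝ) : ℂ) * a, ((s⁻¹ : ℝ) : ℂ) * b, ((s⁻¹ : ℝ) : ℂ) * b',
        ((t⁻¹ : ℝ) : ℂ) * g0, ((t⁻¹ : ℝ) : ℂ) * g1) ∈ K := by
      constructor
      · simp only [nT, norm_mul, hsn, mul_pow]
        have : s⁻¹ ^ 2 * (‖a‖ ^ 2 + ‖b‖ ^ 2 + ‖b'‖ ^ 2) = 1 := by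
          have e : ‖a‖ ^ 2 + ‖b‖ ^ 2 + ‖b'‖ ^ 2 = s ^ 2 := hs2.symm
          rw [e]
          field_simp
        linarith
      · simp only [nG, norm_mul, htn, mul_pow]
        have : t⁻¹ ^ 2 * (‖g0‖ ^ 2 + ‖g1‖ ^ 2) = 1 := by
          have e : ‖g0‖ ^ 2 + ‖g1‖ ^ 2 = t ^ 2 := ht2.symm
          rw [e]
          field_simp
        linarith
    have h5 := hmin hmem
    simp only [mem_setOf_eq] at h5
    rw [JJ_homog] at h5
    have h6 : JJ a b b' g0 g1 = s ^ 2 * t ^ 4 * (s⁻¹ ^ 2 * t⁻¹ ^ 4 * JJ a b b' g0 g1) := by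
      field_simp
    rw [h6, ← hs2, ← ht2]
    have h7 : 0 ≤ s ^ 2 * t ^ 4 := by positivity
    calc _ = s ^ 2 * t ^ 4 * JJ v0.1 v0.2.1 v0.2.2.1 v0.2.2.2.1 v0.2.2.2.2 := by ring
      _ ≤ _ := mul_le_mul_of_nonneg_left h5 h7

end P365T2.H216
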