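import Vale.Agent.P365.T2.H216.Circ
import Vale.Agent.P365.T1a.Site
import Vale.Agent.P365.L1.Alg2
import Vale.Agent.P365.Stat.T1

/-!
# P365 T2: one-site formulas on the circle of `G_yy` (real shift of the potential at `y`).
-/

set_option linter.all false

namespace P365T2.H216

open MeasureTheory Complex Set P365L P365T1
open scoped ComplexConjugate Real

variable {ι : Type*} [Fintype ι] [DecidableEq ι] {A : Matrix ι ι ℝ} {W : ι → ℂ} {a : ι → ℝ}

/-- real shift of the potential at `y` -/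
noncomputable def Wt (W : ι → ℂ) (y : ι) (t : ℝ) : ι → ℂ := Function.update W y (W y + (t : ℂ))

/-- `R_zy = Q_zy / G_yy` -/
noncomputable def Rq (A : Matrix ι ι ℝ) (W : ι → ℂ) (a : ι → ℝ) (y z : ι) : ℂ :=
  Qm A W a z y / Gr A W y y

theorem Wt_im (W : ι → ℂ) (y : ι) (t : ℝ) : (W y + (t : ℂ)).im = (W y).im := by
  rw [Complex.add_im, Complex.ofReal_im, add_zero]

theorem Wt_neg (hW : ∀ x, (W x).im < 0) (y : ι) (t : ℝ) (x : ι) : (Wt W y t x).im < 0 :=
  update_neg hW (by rw [Wt_im]; exact hW y) x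

theorem Wt_im' (W : ι → ℂ) (y : ι) (t : ℝ) (x : ι) : (Wt W y t x).im = (W x).im := by
  unfold Wt
  by_cases hx : x = y
  · subst hx
    rw [Function.update_self, Wt_im]
  · rw [Function.update_of_ne hx]

section

variable (hA : A.IsSymm) (hW : ∀ x, (W x).im < 0) (y : ι) (t : ℝ)
include hA hW

theorem inv_t : (Gr A (Wt W y t) y y)⁻¹ = (Gr A W y y)⁻¹ + t :=
  Gr_zz_update hA hW (by rw [Wt_im]; exact hW y)

theorem one_add_ne' : 1 + (t : ℂ) * Gr A W y y ≠ 0 :=
  one_add_ne hA hW y t (by rw [Wt_im]; exact hW y)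

theorem gam_t : Gr A (Wt W y t) y y = Gr A W y y / (1 + t * Gr A W y y) := by
  have h0 := Gr_self_ne_zero hA hW y
  have h1 := one_add_ne' hA hW y t
  have h2 := inv_t hA hW y t
  have h3 := Gr_self_ne_zero hA (Wt_neg hW y t) y
  rw [← inv_inv (Gr A (Wt W y t) y y), h2]
  field_simp

theorem th_eq : th (Gr A W y y) t =
    (Gr A W y y - Gr A (Wt W y t) y y) / Gr A W y y ^ 2 := by
  have h0 := Gr_self_ne_zero hA hW y
  have h1 := one_add_ne' hA hW y t
  rw [gam_t hA hW, th]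
  field_simp
  ring

theorem gw_t (z : ι) : gw A (Wt W y t) y z = gw A W y z :=
  gw_upd hA hW (by rw [Wt_im]; exact hW y) z

theorem Gr_t (z w : ι) : Gr A (Wt W y t) z w =
    Gr A W z w + (Gr A (Wt W y t) y y - Gr A W y y) * (gw A W y z * gw A W y w) := by
  have h0 := Gr_self_ne_zero hA hW y
  have h := Gr_upd hA hW y (t : ℂ) (by rw [Wt_im]; exact hW y) z w
  rw [th_eq hA hW y t] at h
  rw [Wt] at *
  rw [h, Gr_eq_gw hA hW y z, Gr_eq_gw' hA hW y w]
  field_simp
  ring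

theorem mm_t (z : ι) : mm A (Wt W y t) z =
    mm A W z + ((Gr A (Wt W y t) y y - Gr A W y y) * gw A W y z ^ 2).im := by
  rw [mm, Gr_t hA hW, Complex.add_im, mm]
  congr 2
  ring

theorem Tm_t (z w : ι) : Tm A (Wt W y t) a z w =
    Tm A W a z w + (Gr A (Wt W y t) y y - Gr A W y y) * (Rq A W a y z * gw A W y w) +
      conj ((Gr A (Wt W y t) y y - Gr A W y y) * (Rq A W a y w * gw A W y z)) := by
  have h0 := Gr_self_ne_zero hA hW y
  have h0' : conj (Gr A W y y) ≠ 0 := (map_ne_zero _).2 h0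
  have h := Tm_upd_real (a := a) hA hW y t z w
  rw [th_eq hA hW y t] at h
  set g' := Gr A (Wt W y t) y y with hg'
  rw [Wt, h, Rq, Rq, Gr_eq_gw' hA hW y w, Gr_eq_gw hA hW y z]
  simp only [map_mul, map_sub, map_div₀, map_pow]
  field_simp
  ring

theorem muf_t : muf A (Wt W y t) a y = muf A W a y := by
  have hy : (W y + (t : ℂ)).im < 0 := by rw [Wt_im]; exact hW y
  have h1 := mm_muf_eq hA hW a y
  have h2 := mm_muf_eq hA (Wt_neg hW y t) a y
  have h3 : Bf A (Wt W y t) a y = Bf A W a y := Bf_upd hA hW hy a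
  rw [mm_eq_Sf hA hW] at h1
  rw [mm_eq_Sf hA (Wt_neg hW y t), h3] at h2
  have hS : Sf A (Wt W y t) y = Sf A W y := by
    have e1 := sg_im hA hW y
    have e2 := sg_im hA (Wt_neg hW y t) y
    have e3 : sg A (Wt W y t) y = sg A W y := sg_upd hA hW hy
    rw [e3, Wt_im'] at e2
    linarith
  rw [hS] at h2
  have hn1 : 0 < ‖Gr A W y y‖ ^ 2 := pow_pos (norm_pos_iff.2 (Gr_self_ne_zero hA hW y)) 2
  have hn2 : 0 < ‖Gr A (Wt W y t) y y‖ ^ 2 :=
    pow_pos (norm_pos_iff.2 (Gr_self_ne_zero hA (Wt_neg hW y t) y)) 2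
  have hs := Sf_pos hA hW y
  have k1 : Sf A W y * muf A W a y = Bf A W a y := by
    refine mul_right_cancel₀ hn1.ne' ?_
    linarith
  have k2 : Sf A W y * muf A (Wt W y t) a y = Bf A W a y := by
    refine mul_right_cancel₀ hn2.ne' ?_
    linarith
  exact mul_left_cancel₀ hs.ne' (k2.trans k1.symm)

omit [DecidableEq ι] hA hW in
theorem im_eq_aux (g : ℂ) : ((g.im : ℝ) : ℂ) = (g - conj g) / (2 * I) := by
  rw [Complex.sub_conj]
  push_cast
  field_simp

theorem Rq_self : Rq A W a y y = -(I / 2) * muf A W a y := by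
  have h0 := Gr_self_ne_zero hA hW y
  rw [Rq, Qm, Tm_self hA hW, mm, div_eq_iff h0]
  push_cast
  rw [im_eq_aux]
  have hI : I ≠ 0 := Complex.I_ne_zero
  field_simp
  have h2 : I ^ 2 = -1 := Complex.I_sq
  ring_nf
  rw [h2]
  ring

theorem Qm_t (z : ι) : Qm A (Wt W y t) a z y = Gr A (Wt W y t) y y * Rq A W a y z := by
  have h0 := Gr_self_ne_zero hA hW y
  have hW' := Wt_neg hW y t
  rw [Qm, Tm_t hA hW, muf_t hA hW, Rq_self hA hW, gw_self hA hW, Gr_eq_gw hA hW' y z,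
    gw_t hA hW]
  have hq : Tm A W a z y = Gr A W y y * Rq A W a y z +
      (I / 2) * (muf A W a y) * conj (Gr A W z y) := by
    rw [Rq, mul_div_cancel₀ _ h0, Qm]
    ring
  rw [hq, Gr_eq_gw hA hW y z]
  simp only [map_mul, map_sub, map_neg, map_div₀, Complex.conj_I, Complex.conj_ofReal, map_ofNat]
  ring

theorem Rq_t (z : ι) : Rq A (Wt W y t) a y z = Rq A W a y z := by
  rw [Rq, Qm_t hA hW, mul_div_assoc, mul_div_cancel₀]
  exact Gr_self_ne_zero hA (Wt_neg hW y t) y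

end

end P365T2.H216
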