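import Vale.Agent.P365.T2.H216.Two

/-!
# P365 T2: the two one-site averages (S1), (S2), integrated over one potential.
-/

set_option linter.all false

namespace P365T2.H216

open MeasureTheory Complex Set P365L P365T1
open scoped ComplexConjugate Real ENNReal

variable {ι : Type*} [Fintype ι] [DecidableEq ι] {A : Matrix ι ι ℝ} {W : ι → ℂ} {a : ι → ℝ}

theorem norm_TT_le (α β β' : ℂ) (x : ℝ) : ‖TT α β β' x‖ ^ 2 ≤ 3 * nT α β β' := by
  have h1 : ‖TT α β β' x‖ ≤ ‖α‖ + ‖β‖ + ‖β'‖ := by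
    unfold TT
    refine (norm_add_le _ _).trans ?_
    have h2 : ‖β' * conj (xi x)‖ ≤ ‖β'‖ := by
      rw [norm_mul, Complex.norm_conj]
      exact mul_le_of_le_one_right (norm_nonneg _) (norm_xi_le x)
    have h3 : ‖β * xi x‖ ≤ ‖β‖ := by
      rw [norm_mul]
      exact mul_le_of_le_one_right (norm_nonneg _) (norm_xi_le x)
    have h4 := norm_add_le α (β * xi x)
    linarith
  have h2 := pow_le_pow_left₀ (norm_nonneg _) h1 2
  unfold nT
  nlinarith [sq_nonneg (‖α‖ - ‖β‖), sq_nonneg (‖α‖ - ‖β'‖), sq_nonneg (‖β‖ - ‖β'‖)]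

theorem norm_GG_le (g0 g1 : ℂ) (x : ℝ) : ‖GG g0 g1 x‖ ^ 2 ≤ 2 * nG g0 g1 := by
  have h1 : ‖GG g0 g1 x‖ ≤ ‖g0‖ + ‖g1‖ := by
    unfold GG
    refine (norm_add_le _ _).trans ?_
    have h3 : ‖g1 * xi x‖ ≤ ‖g1‖ := by
      rw [norm_mul]
      exact mul_le_of_le_one_right (norm_nonneg _) (norm_xi_le x)
    linarith
  have h2 := pow_le_pow_left₀ (norm_nonneg _) h1 2
  unfold nG
  nlinarith [sq_nonneg (‖g0‖ - ‖g1‖)]

/-- the integrand of the two-step side -/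
noncomputable def F3 (A : Matrix ι ι ℝ) (W : ι → ℂ) (a : ι → ℝ) (y z w : ι) : ℝ :=
  mm A W y * (Stat.kp A W z y * Stat.kp A W w y) ^ 3 * ‖Tm A W a z w‖ ^ 2

/-- the integrand of the one-step side -/
noncomputable def F2 (A : Matrix ι ι ℝ) (W : ι → ℂ) (a : ι → ℝ) (y z w : ι) : ℝ :=
  mm A W y * (Stat.kp A W z y * Stat.kp A W w y * Stat.kp A W z w ^ 2) * ‖Tm A W a z w‖ ^ 2

/-- the lower comparison at a pole `p` with constant `M` -/
def Low (ν : Measure ℝ) (p : ℂ) (M : ℝ≥0∞) : Prop :=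
  ∀ h : ℝ → ℝ≥0∞, Measurable h → M * ∫⁻ x in Icc (-1 : ℝ) 1, h (p.re + p.im * x) ≤
    ∫⁻ v, h v * ENNReal.ofReal (1 / ‖(v : ℂ) - p‖ ^ 2) ∂ν

section

variable (hA : A.IsSymm) (hW : ∀ x, (W x).im < 0) (y : ι) (c0 : ℝ)
include hA hW

theorem xc_line (x : ℝ) :
    xc A W y c0 ((pole A W y c0).re + (pole A W y c0).im * x) = x := by
  have hS := Sf_pos hA hW y
  rw [xc, pole_im hA hW]
  field_simp
  ring

theorem continuous_xc : Continuous (xc A W y c0) := by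
  unfold xc
  fun_prop

/-- lower bound of the circle integral of `‖T‖² ‖G‖⁴` -/
theorem low_TG {ν : Measure ℝ} {M : ℝ≥0∞} (hL : Low ν (pole A W y c0) M) {r : ℝ} (hr : 0 ≤ r)
    (α β β' g0 g1 : ℂ) :
    M * ENNReal.ofReal (r * (c6 * (nT α β β' * nG g0 g1 ^ 2))) ≤
      ∫⁻ v, ENNReal.ofReal (r * (‖TT α β β' (xc A W y c0 v)‖ ^ 2 *
        ‖GG g0 g1 (xc A W y c0 v)‖ ^ 4)) *
        ENNReal.ofReal (1 / ‖(v : ℂ) - pole A W y c0‖ ^ 2) ∂ν := by
  have hm : Measurable fun v : ℝ => ENNReal.ofReal (r * (‖TT α β β' (xc A W y c0 v)‖ ^ 2 *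
        ‖GG g0 g1 (xc A W y c0 v)‖ ^ 4)) := by
    have h1 := (continuous_TT α β β').comp (continuous_xc hA hW y c0)
    have h2 := (continuous_GG g0 g1).comp (continuous_xc hA hW y c0)
    exact (continuous_const.mul ((h1.norm.pow 2).mul (h2.norm.pow 4))).measurable.ennreal_ofReal
  refine le_trans ?_ (hL _ hm)
  simp only [xc_line hA hW]
  rw [JJ_lint hr]
  gcongr
  exact c6_le _ _ _ _ _

/-- **(S1)**, lower bound -/
theorem S1b {ν : Measure ℝ} {M : ℝ≥0∞} (hL : Low ν (pole A W y c0) M) (z : ι) :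
    M * ENNReal.ofReal (c6 * (Stat.kp A W z y ^ 2 * ‖Rq A W a y z‖ ^ 2)) ≤
      ∫⁻ v, ENNReal.ofReal (KK A (Wt W y (v - c0)) z y * muf A (Wt W y (v - c0)) a z ^ 2) ∂ν := by
  have hS := Sf_pos hA hW y
  rcases eq_or_ne (gw A W y z) 0 with hc | hc
  · have hk : Stat.kp A W z y = 0 := by
      have h1 := kp_eq hA hW y z
      rw [hc, norm_zero, zero_pow two_ne_zero, add_zero] at h1
      exact (mul_eq_zero.1 h1).resolve_right (mul_pos (mm_pos hA hW z) hS).ne'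
    rw [hk]
    simp
  have hc0 : 0 < ‖gw A W y z‖ := norm_pos_iff.2 hc
  have hc2 : 0 < ‖gw A W y z‖ ^ 2 := pow_pos hc0 2
  set r : ℝ := Sf A W y ^ 2 * Stat.kp A W z y ^ 2 / ‖gw A W y z‖ ^ 2 with hr
  have hr0 : 0 ≤ r := by positivity
  set α : ℂ := Tm A W a z z - Gr A W y y * (Rq A W a y z * gw A W y z) -
        conj (Gr A W y y * (Rq A W a y z * gw A W y z)) with hα
  have h1 := low_TG hA hW y c0 hL hr0 α (Rq A W a y z * gw A W y z / Sf A W y)
    (conj (Rq A W a y z * gw A W y z) / Sf A W y) 1 0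
  refine le_trans ?_ (h1.trans ?_)
  · refine mul_le_mul' le_rfl (ENNReal.ofReal_le_ofReal ?_)
    have e1 : nG 1 0 = 1 := by simp [nG]
    rw [e1, one_pow, mul_one]
    have e2 : ‖Rq A W a y z * gw A W y z / (Sf A W y : ℂ)‖ ^ 2 ≤
        nT α (Rq A W a y z * gw A W y z / Sf A W y)
          (conj (Rq A W a y z * gw A W y z) / Sf A W y) := by
      unfold nT
      have := sq_nonneg ‖α‖
      have := sq_nonneg ‖conj (Rq A W a y z * gw A W y z) / (Sf A W y : ℂ)‖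
      linarith
    rw [norm_div, norm_mul, Complex.norm_real, Real.norm_eq_abs, abs_of_pos hS] at e2
    have h6 := c6_pos
    calc c6 * (Stat.kp A W z y ^ 2 * ‖Rq A W a y z‖ ^ 2)
        = r * (c6 * (‖Rq A W a y z‖ * ‖gw A W y z‖ / Sf A W y) ^ 2) := by
          rw [hr]
          field_simp
      _ ≤ _ := by gcongr
  · refine lintegral_mono fun v => ?_
    have hW' := Wt_neg hW y (v - c0)
    rw [← norm_gam_v hA hW y c0 v, ← Tm_TT hA hW y c0 v z z,
      ← ENNReal.ofReal_mul (by positivity)]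
    refine ENNReal.ofReal_le_ofReal ?_
    have e1 : GG 1 0 (xc A W y c0 v) = 1 := by simp [GG]
    rw [e1, norm_one, one_pow, mul_one]
    have h2 := P1 (a := a) hA hW y (v - c0) z
    calc r * ‖Tm A (Wt W y (v - c0)) a z z‖ ^ 2 * ‖Gr A (Wt W y (v - c0)) y y‖ ^ 2
        = (Sf A W y ^ 2 * Stat.kp A W z y ^ 2 * ‖Tm A (Wt W y (v - c0)) a z z‖ ^ 2 *
            ‖Gr A (Wt W y (v - c0)) y y‖ ^ 2) / ‖gw A W y z‖ ^ 2 := by
          rw [hr]
          ring
      _ ≤ (‖gw A W y z‖ ^ 2 * (KK A (Wt W y (v - c0)) z y *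
            muf A (Wt W y (v - c0)) a z ^ 2)) / ‖gw A W y z‖ ^ 2 := by gcongr
      _ = _ := by
          field_simp

/-- **(S1)** -/
theorem S1c {ν : Measure ℝ} {M : ℝ≥0∞} {C : ℝ} (hM : M ≠ ⊤)
    (hup : ∫⁻ v, ENNReal.ofReal (1 / ‖(v : ℂ) - pole A W y c0‖ ^ 2) ∂ν ≤ ENNReal.ofReal C * M)
    (hL : Low ν (pole A W y c0) M) (z : ι) :
    ∫⁻ v, ENNReal.ofReal (c6 * (Stat.kp A (Wt W y (v - c0)) z y ^ 2 *
      ‖Qm A (Wt W y (v - c0)) a z y‖ ^ 2)) ∂ν ≤ ENNReal.ofReal C *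
      ∫⁻ v, ENNReal.ofReal (KK A (Wt W y (v - c0)) z y * muf A (Wt W y (v - c0)) a z ^ 2) ∂ν := by
  have hw : Measurable fun v : ℝ => ENNReal.ofReal (1 / ‖(v : ℂ) - pole A W y c0‖ ^ 2) := by
    refine Measurable.ennreal_ofReal (Measurable.const_div ?_ 1)
    exact ((Complex.measurable_ofReal.sub_const _).norm).pow_const 2
  have h := avg (ν := ν) (f := fun v => ENNReal.ofReal (c6 * (Stat.kp A (Wt W y (v - c0)) z y ^ 2 *
      ‖Rq A W a y z‖ ^ 2))) hw hM hup (J := ∫⁻ v, ENNReal.ofReal (KK A (Wt W y (v - c0)) z y *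
        muf A (Wt W y (v - c0)) a z ^ 2) ∂ν) fun v0 => ?_
  · refine le_trans (le_of_eq ?_) h
    refine lintegral_congr fun v => ?_
    rw [← ENNReal.ofReal_mul (by have := c6_pos; positivity), ← norm_gam_v hA hW y c0 v,
      Qm_t hA hW, norm_mul]
    congr 1
    ring
  · have hW' := Wt_neg hW y (v0 - c0)
    have hp : pole A (Wt W y (v0 - c0)) y v0 = pole A W y c0 := by
      have := pole_t hA hW y c0 (v0 - c0)
      rwa [add_sub_cancel] at this
    have h1 := S1b (a := a) hA hW' y v0 (ν := ν) (M := M) (by rw [hp]; exact hL) z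
    rw [Rq_t hA hW] at h1
    refine h1.trans (le_of_eq ?_)
    refine lintegral_congr fun v => ?_
    rw [Wt_Wt]
    have : v0 - c0 + (v - v0) = v - c0 := by ring
    rw [this]

/-! ### (S2) -/

/-- (P2) -/
theorem P2 (v : ℝ) {z w : ι} {g0 g1 : ℂ} {X : ℝ}
    (hG : ‖Gr A (Wt W y (v - c0)) z w‖ ^ 2 = X) (hX : X ≤ 2 * nG g0 g1)
    (hg1 : ‖g1‖ = ‖gw A W y z‖ * ‖gw A W y w‖ / Sf A W y) {T : ℝ} (hT : 0 ≤ T) :
    (Stat.kp A W z y * Stat.kp A W w y) ^ 3 * X ^ 2 * T * mm A (Wt W y (v - c0)) y ≤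
      36 * nG g0 g1 ^ 2 * (mm A (Wt W y (v - c0)) y *
        (Stat.kp A (Wt W y (v - c0)) z y * Stat.kp A (Wt W y (v - c0)) w y *
          Stat.kp A (Wt W y (v - c0)) z w ^ 2) * T) := by
  set W' := Wt W y (v - c0) with hWd
  have hW' : ∀ x, (W' x).im < 0 := Wt_neg hW y (v - c0)
  have hS := Sf_pos hA hW y
  have hmz := mm_pos hA hW' z
  have hmw := mm_pos hA hW' w
  have hmy := mm_pos hA hW' y
  set k1 := Stat.kp A W z y with hk1
  set k2 := Stat.kp A W w y with hk2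
  have k10 := Stat.kp_nonneg hA hW z y
  have k20 := Stat.kp_nonneg hA hW w y
  have k11 := Stat.kp_le_one hA hW z y
  have k21 := Stat.kp_le_one hA hW w y
  have k1h := kp_half hA hW y (v - c0) z
  have k2h := kp_half hA hW y (v - c0) w
  rw [← hk1] at k10 k11 k1h
  rw [← hk2] at k20 k21 k2h
  set κ := Stat.kp A W' z w with hκ
  have κ0 := Stat.kp_nonneg hA hW' z w
  rw [← hκ] at κ0
  have hX0 : 0 ≤ X := by rw [← hG]; positivity
  -- `κ (m m + X) = X`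
  have e1 : κ * (mm A W' z * mm A W' w + X) = X := by
    have hd : 0 < mm A W' z * mm A W' w + X := by positivity
    rw [hκ, Stat.kp, KK, hG]
    field_simp
  have n0 : 0 ≤ nG g0 g1 := by unfold nG; positivity
  -- `m m k1 k2 ≤ |g1|^2`
  have e2 : mm A W' z * mm A W' w * (k1 * k2) ≤ ‖g1‖ ^ 2 := by
    have h1 := mk_le hA hW y (v - c0) z
    have h2 := mk_le hA hW y (v - c0) w
    have h3 : (mm A W' z * Sf A W y * k1) * (mm A W' w * Sf A W y * k2) ≤
        ‖gw A W y z‖ ^ 2 * ‖gw A W y w‖ ^ 2 :=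
      mul_le_mul h1 h2 (by positivity) (by positivity)
    rw [hg1, div_pow, mul_pow, le_div_iff₀ (by positivity)]
    calc _ = (mm A W' z * Sf A W y * k1) * (mm A W' w * Sf A W y * k2) := by ring
      _ ≤ _ := h3
  have e3 : ‖g1‖ ^ 2 ≤ nG g0 g1 := by
    unfold nG
    have := sq_nonneg ‖g0‖
    linarith
  have k12 : k1 * k2 ≤ 1 := mul_le_one₀ k11 k20 k21
  have k120 : 0 ≤ k1 * k2 := mul_nonneg k10 k20
  -- `X k1 k2 ≤ 3 nG κ`
  have e4 : X * (k1 * k2) ≤ 3 * nG g0 g1 * κ := by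
    calc X * (k1 * k2) = κ * ((mm A W' z * mm A W' w + X) * (k1 * k2)) := by
          rw [← mul_assoc κ, e1]
      _ ≤ κ * (3 * nG g0 g1) := by
          refine mul_le_mul_of_nonneg_left ?_ κ0
          have : X * (k1 * k2) ≤ X * 1 := mul_le_mul_of_nonneg_left k12 hX0
          nlinarith
      _ = _ := by ring
  have e5 : (X * (k1 * k2)) ^ 2 ≤ (3 * nG g0 g1 * κ) ^ 2 :=
    pow_le_pow_left₀ (mul_nonneg hX0 k120) e4 2
  have e6 : k1 * k2 ≤ (2 * Stat.kp A W' z y) * (2 * Stat.kp A W' w y) :=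
    mul_le_mul k1h k2h k20 (by linarith)
  have e7 : (k1 * k2) * (X * (k1 * k2)) ^ 2 ≤
      ((2 * Stat.kp A W' z y) * (2 * Stat.kp A W' w y)) * (3 * nG g0 g1 * κ) ^ 2 :=
    mul_le_mul e6 e5 (by positivity) (by
      have := Stat.kp_nonneg hA hW' z y
      have := Stat.kp_nonneg hA hW' w y
      positivity)
  calc (k1 * k2) ^ 3 * X ^ 2 * T * mm A W' y
      = ((k1 * k2) * (X * (k1 * k2)) ^ 2) * (T * mm A W' y) := by ring
    _ ≤ (((2 * Stat.kp A W' z y) * (2 * Stat.kp A W' w y)) * (3 * nG g0 g1 * κ) ^ 2) *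
        (T * mm A W' y) := mul_le_mul_of_nonneg_right e7 (by positivity)
    _ = _ := by ring

/-- **(S2)**, lower bound -/
theorem S2b {ν : Measure ℝ} {M : ℝ≥0∞} (hL : Low ν (pole A W y c0) M) (z w : ι) :
    M * ENNReal.ofReal (c6 / 108 * (Sf A W y * (Stat.kp A W z y * Stat.kp A W w y) ^ 3 *
      ‖Tm A W a z w‖ ^ 2)) ≤ ∫⁻ v, ENNReal.ofReal (F2 A (Wt W y (v - c0)) a y z w) ∂ν := by
  have hS := Sf_pos hA hW y
  have h6 := c6_pos
  have hzero : ∀ x, gw A W y x = 0 → Stat.kp A W x y = 0 := by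
    intro x hc
    have h1 := kp_eq hA hW y x
    rw [hc, norm_zero, zero_pow two_ne_zero, add_zero] at h1
    exact (mul_eq_zero.1 h1).resolve_right (mul_pos (mm_pos hA hW x) hS).ne'
  rcases eq_or_ne (gw A W y z) 0 with hc | hc
  · rw [hzero z hc]
    simp
  rcases eq_or_ne (gw A W y w) 0 with hc' | hc'
  · rw [hzero w hc']
    simp
  set g0 : ℂ := Gr A W z w - Gr A W y y * (gw A W y z * gw A W y w) with hg0
  set g1 : ℂ := gw A W y z * gw A W y w / Sf A W y with hg1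
  have hSc : (Sf A W y : ℂ) ≠ 0 := by exact_mod_cast hS.ne'
  have hg1' : g1 ≠ 0 := div_ne_zero (mul_ne_zero hc hc') hSc
  have hn : 0 < nG g0 g1 := by
    unfold nG
    have := pow_pos (norm_pos_iff.2 hg1') 2
    positivity
  have hn1 : ‖g1‖ = ‖gw A W y z‖ * ‖gw A W y w‖ / Sf A W y := by
    rw [hg1, norm_div, norm_mul, Complex.norm_real, Real.norm_eq_abs, abs_of_pos hS]
  set α : ℂ := Tm A W a z w - Gr A W y y * (Rq A W a y z * gw A W y w) -
        conj (Gr A W y y * (Rq A W a y w * gw A W y z)) with hα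
  set β : ℂ := Rq A W a y z * gw A W y w / Sf A W y with hβ
  set β' : ℂ := conj (Rq A W a y w * gw A W y z) / Sf A W y with hβ'
  set k := (Stat.kp A W z y * Stat.kp A W w y) ^ 3 with hk
  have hk0 : 0 ≤ k := pow_nonneg (mul_nonneg (Stat.kp_nonneg hA hW z y)
    (Stat.kp_nonneg hA hW w y)) 3
  set r : ℝ := Sf A W y * k / (36 * nG g0 g1 ^ 2) with hr
  have hr0 : 0 ≤ r := by positivity
  have h1 := low_TG hA hW y c0 hL hr0 α β β' g0 g1
  refine le_trans ?_ (h1.trans ?_)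
  · refine mul_le_mul' le_rfl (ENNReal.ofReal_le_ofReal ?_)
    have e0 : ‖Tm A W a z w‖ ^ 2 ≤ 3 * nT α β β' := by
      have e1 := Tm_TT (a := a) hA hW y c0 c0 z w
      rw [sub_self, Wt_zero] at e1
      rw [e1]
      exact norm_TT_le _ _ _ _
    calc c6 / 108 * (Sf A W y * k * ‖Tm A W a z w‖ ^ 2)
        ≤ c6 / 108 * (Sf A W y * k * (3 * nT α β β')) := by gcongr
      _ = r * (c6 * (nT α β β' * nG g0 g1 ^ 2)) := by
          rw [hr]
          field_simp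
          ring
  · refine lintegral_mono fun v => ?_
    have hW' := Wt_neg hW y (v - c0)
    rw [← norm_gam_v hA hW y c0 v, ← Tm_TT hA hW y c0 v z w, ← Gr_GG hA hW y c0 v z w,
      ← ENNReal.ofReal_mul (by positivity)]
    refine ENNReal.ofReal_le_ofReal ?_
    have h2 := P2 hA hW y c0 v (z := z) (w := w) (g0 := g0) (g1 := g1)
      (X := ‖Gr A (Wt W y (v - c0)) z w‖ ^ 2) rfl
      (by rw [Gr_GG hA hW y c0 v z w]; exact norm_GG_le _ _ _) hn1
      (T := ‖Tm A (Wt W y (v - c0)) a z w‖ ^ 2) (sq_nonneg _)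
    have h3 : mm A (Wt W y (v - c0)) y = Sf A W y * ‖Gr A (Wt W y (v - c0)) y y‖ ^ 2 := by
      rw [mm_eq_Sf hA hW', Sf_t hA hW]
    calc r * (‖Tm A (Wt W y (v - c0)) a z w‖ ^ 2 * ‖Gr A (Wt W y (v - c0)) z w‖ ^ 4) *
          ‖Gr A (Wt W y (v - c0)) y y‖ ^ 2
        = (k * (‖Gr A (Wt W y (v - c0)) z w‖ ^ 2) ^ 2 * ‖Tm A (Wt W y (v - c0)) a z w‖ ^ 2 *
            mm A (Wt W y (v - c0)) y) / (36 * nG g0 g1 ^ 2) := by
          rw [hr, h3]
          ring
      _ ≤ (36 * nG g0 g1 ^ 2 * (mm A (Wt W y (v - c0)) y *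
          (Stat.kp A (Wt W y (v - c0)) z y * Stat.kp A (Wt W y (v - c0)) w y *
            Stat.kp A (Wt W y (v - c0)) z w ^ 2) * ‖Tm A (Wt W y (v - c0)) a z w‖ ^ 2)) /
          (36 * nG g0 g1 ^ 2) := by gcongr
      _ = F2 A (Wt W y (v - c0)) a y z w := by
          rw [F2]
          field_simp

/-- **(S2)** -/
theorem S2c {ν : Measure ℝ} {M : ℝ≥0∞} {C : ℝ} (hM : M ≠ ⊤)
    (hup : ∫⁻ v, ENNReal.ofReal (1 / ‖(v : ℂ) - pole A W y c0‖ ^ 2) ∂ν ≤ ENNReal.ofReal C * M)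
    (hL : Low ν (pole A W y c0) M) (z w : ι) :
    ∫⁻ v, ENNReal.ofReal (c6 / 108 * F3 A (Wt W y (v - c0)) a y z w) ∂ν ≤ ENNReal.ofReal C *
      ∫⁻ v, ENNReal.ofReal (F2 A (Wt W y (v - c0)) a y z w) ∂ν := by
  have hw : Measurable fun v : ℝ => ENNReal.ofReal (1 / ‖(v : ℂ) - pole A W y c0‖ ^ 2) := by
    refine Measurable.ennreal_ofReal (Measurable.const_div ?_ 1)
    exact ((Complex.measurable_ofReal.sub_const _).norm).pow_const 2
  have h := avg (ν := ν) (f := fun v => ENNReal.ofReal (c6 / 108 * (Sf A W y *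
      (Stat.kp A (Wt W y (v - c0)) z y * Stat.kp A (Wt W y (v - c0)) w y) ^ 3 *
      ‖Tm A (Wt W y (v - c0)) a z w‖ ^ 2))) hw hM hup
      (J := ∫⁻ v, ENNReal.ofReal (F2 A (Wt W y (v - c0)) a y z w) ∂ν) fun v0 => ?_
  · refine le_trans (le_of_eq ?_) h
    refine lintegral_congr fun v => ?_
    have hW' := Wt_neg hW y (v - c0)
    have hS := Sf_pos hA hW y
    have k1 := Stat.kp_nonneg hA hW' z y
    have k2 := Stat.kp_nonneg hA hW' w y
    rw [← ENNReal.ofReal_mul (by have := c6_pos; positivity), ← norm_gam_v hA hW y c0 v, F3,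
      mm_eq_Sf hA hW' y, Sf_t hA hW]
    congr 1
    ring
  · have hW' := Wt_neg hW y (v0 - c0)
    have hp : pole A (Wt W y (v0 - c0)) y v0 = pole A W y c0 := by
      have := pole_t hA hW y c0 (v0 - c0)
      rwa [add_sub_cancel] at this
    have h1 := S2b (a := a) hA hW' y v0 (ν := ν) (M := M) (by rw [hp]; exact hL) z w
    rw [Sf_t hA hW] at h1
    refine h1.trans (le_of_eq ?_)
    refine lintegral_congr fun v => ?_
    rw [Wt_Wt]
    have : v0 - c0 + (v - v0) = v - c0 := by ring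
    rw [this]

end

end P365T2.H216
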