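import Vale.Agent.P365.T2.H216.One

/-!
# P365 T2: pointwise inequalities on the circle and the two one-site averages (S1), (S2).
-/

set_option linter.all false

namespace P365T2.H216

open MeasureTheory Complex Set P365L P365T1
open scoped ComplexConjugate Real ENNReal

/-- a law whose resonances are either narrow and inside the support (`p ∈ Gd`: the measure
`|v - p|^{-2} ν` is comparable with `dx` near `Re p`) or harmless -/
structure LawAv (Gd : Set ℂ) (C : ℝ) (ν : Measure ℝ) : Prop where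
  meas : MeasurableSet Gd
  bad : ∀ p : ℂ, 0 < p.im → p ∉ Gd →
    ∫⁻ v, ENNReal.ofReal (1 / ‖(v : ℂ) - p‖ ^ 2) ∂ν ≤ ENNReal.ofReal (C / (1 + ‖p‖ ^ 2))
  good : ∀ p : ℂ, 0 < p.im → p ∈ Gd → ∃ M : ℝ≥0∞, M ≠ ⊤ ∧
    ∫⁻ v, ENNReal.ofReal (1 / ‖(v : ℂ) - p‖ ^ 2) ∂ν ≤ ENNReal.ofReal C * M ∧
    ∀ h : ℝ → ℝ≥0∞, Measurable h → M * ∫⁻ x in Icc (-1 : ℝ) 1, h (p.re + p.im * x) ≤
      ∫⁻ v, h v * ENNReal.ofReal (1 / ‖(v : ℂ) - p‖ ^ 2) ∂ν

/-- the compactness constant -/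
noncomputable def c6 : ℝ := Classical.choose exists_c6

theorem c6_pos : 0 < c6 := (Classical.choose_spec exists_c6).1

theorem c6_le (a b b' g0 g1 : ℂ) : c6 * (nT a b b' * nG g0 g1 ^ 2) ≤ JJ a b b' g0 g1 :=
  (Classical.choose_spec exists_c6).2 a b b' g0 g1

theorem JJ_lint {r : ℝ} (hr : 0 ≤ r) (a b b' g0 g1 : ℂ) :
    ∫⁻ x in Icc (-1 : ℝ) 1, ENNReal.ofReal (r * (‖TT a b b' x‖ ^ 2 * ‖GG g0 g1 x‖ ^ 4)) =
      ENNReal.ofReal (r * JJ a b b' g0 g1) := by
  have hc : Continuous fun x => r * (‖TT a b b' x‖ ^ 2 * ‖GG g0 g1 x‖ ^ 4) :=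
    continuous_const.mul (((continuous_TT a b b').norm.pow 2).mul ((continuous_GG g0 g1).norm.pow 4))
  rw [← ofReal_integral_eq_lintegral_ofReal
    (hc.continuousOn.integrableOn_compact isCompact_Icc)
    (Filter.Eventually.of_forall fun x => by positivity)]
  congr 1
  rw [integral_const_mul, JJ, intervalIntegral.integral_of_le (by norm_num),
    integral_Icc_eq_integral_Ioc]

/-- abstract averaging -/
theorem avg {ν : Measure ℝ} {w f : ℝ → ℝ≥0∞} (hw : Measurable w) {M J C : ℝ≥0∞} (hM : M ≠ ⊤)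
    (hup : ∫⁻ v, w v ∂ν ≤ C * M) (hpt : ∀ v, M * f v ≤ J) : ∫⁻ v, f v * w v ∂ν ≤ C * J := by
  rcases eq_or_ne M 0 with h0 | h0
  · rw [h0, mul_zero, nonpos_iff_eq_zero, lintegral_eq_zero_iff hw] at hup
    have : ∫⁻ v, f v * w v ∂ν = 0 := by
      rw [show (0 : ℝ≥0∞) = ∫⁻ v, (0 : ℝ≥0∞) ∂ν by simp]
      refine lintegral_congr_ae ?_
      filter_upwards [hup] with v hv
      rw [hv]
      simp
    rw [this]
    exact bot_le
  · have h1 : ∀ v, f v ≤ J / M := fun v => by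
      rw [ENNReal.le_div_iff_mul_le (Or.inl h0) (Or.inl hM), mul_comm]
      exact hpt v
    calc ∫⁻ v, f v * w v ∂ν ≤ ∫⁻ v, J / M * w v ∂ν := by
          refine lintegral_mono fun v => ?_
          gcongr
          exact h1 v
      _ = J / M * ∫⁻ v, w v ∂ν := lintegral_const_mul _ hw
      _ ≤ J / M * (C * M) := by gcongr
      _ = C * (J / M * M) := by ring
      _ = C * J := by rw [ENNReal.div_mul_cancel h0 hM]

variable {ι : Type*} [Fintype ι] [DecidableEq ι] {A : Matrix ι ι ℝ} {W : ι → ℂ} {a : ι → ℝ}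

theorem Wt_Wt (W : ι → ℂ) (y : ι) (s t : ℝ) : Wt (Wt W y s) y t = Wt W y (s + t) := by
  unfold Wt
  rw [Function.update_idem, Function.update_self]
  congr 1
  push_cast
  ring

theorem Wt_zero (W : ι → ℂ) (y : ι) : Wt W y 0 = W := by
  unfold Wt
  simp

section

variable (hA : A.IsSymm) (hW : ∀ x, (W x).im < 0) (y : ι)
include hA hW

theorem circ (z : ι) : Sf A W z * ‖Gr A W z z‖ ^ 2 = (Gr A W z z).im :=
  (mm_eq_Sf hA hW z).symm

theorem Sf_t (t : ℝ) : Sf A (Wt W y t) y = Sf A W y := by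
  have hy : (W y + (t : ℂ)).im < 0 := by rw [Wt_im]; exact hW y
  have e1 := sg_im hA hW y
  have e2 := sg_im hA (Wt_neg hW y t) y
  have e3 : sg A (Wt W y t) y = sg A W y := sg_upd hA hW hy
  rw [e3, Wt_im'] at e2
  linarith

omit [Fintype ι] [DecidableEq ι] hA hW in
theorem circ_center {Γ : ℝ} (hΓ : 0 < Γ) {g : ℂ} (h : Γ * ‖g‖ ^ 2 = g.im) :
    ‖g - I / (2 * Γ)‖ = 1 / (2 * Γ) := by
  have h1 : ‖g - I / (2 * Γ)‖ ^ 2 = (1 / (2 * Γ)) ^ 2 := by
    have e : (I / (2 * Γ) : ℂ) = ((1 / (2 * Γ) : ℝ) : ℂ) * I := by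
      push_cast
      ring
    rw [e]
    rw [← Complex.normSq_eq_norm_sq] at h ⊢
    rw [Complex.normSq_apply] at h ⊢
    simp only [Complex.sub_re, Complex.sub_im, Complex.mul_re, Complex.mul_im, Complex.ofReal_re,
      Complex.ofReal_im, Complex.I_re, Complex.I_im, mul_zero, mul_one, zero_mul, sub_zero,
      add_zero, sub_self]
    have hr : (1 / (2 * Γ)) * (2 * Γ) = 1 := by
      field_simp
    linear_combination (2 * (1 / (2 * Γ))) * h - (g.re * g.re + g.im * g.im) * hr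
  exact (pow_left_inj₀ (norm_nonneg _) (by positivity) two_ne_zero).1 h1

theorem gam_sub_le (t : ℝ) : ‖Gr A (Wt W y t) y y - Gr A W y y‖ ≤ 1 / Sf A W y := by
  have hS := Sf_pos hA hW y
  have h1 := circ_center hS (circ hA hW y)
  have h2 := circ (A := A) hA (Wt_neg hW y t) y
  rw [Sf_t hA hW] at h2
  have h3 := circ_center hS h2
  have h4 : Gr A (Wt W y t) y y - Gr A W y y =
      (Gr A (Wt W y t) y y - I / (2 * (Sf A W y : ℂ))) - (Gr A W y y - I / (2 * (Sf A W y : ℂ))) := by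
    ring
  rw [h4]
  refine (norm_sub_le _ _).trans ?_
  rw [h1, h3]
  have : 1 / (2 * Sf A W y) + 1 / (2 * Sf A W y) = 1 / Sf A W y := by
    field_simp
    norm_num
  linarith

theorem mm_t_le (t : ℝ) (z : ι) :
    mm A (Wt W y t) z * Sf A W y ≤ mm A W z * Sf A W y + ‖gw A W y z‖ ^ 2 := by
  have hS := Sf_pos hA hW y
  rw [mm_t hA hW]
  have h1 : ((Gr A (Wt W y t) y y - Gr A W y y) * gw A W y z ^ 2).im ≤
      1 / Sf A W y * ‖gw A W y z‖ ^ 2 := by
    refine (Complex.im_le_norm _).trans ?_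
    rw [norm_mul, norm_pow]
    gcongr
    exact gam_sub_le hA hW y t
  have h2 : 1 / Sf A W y * ‖gw A W y z‖ ^ 2 * Sf A W y = ‖gw A W y z‖ ^ 2 := by
    field_simp
  nlinarith

theorem KK_gw (z : ι) : KK A W z y = ‖gw A W y z‖ ^ 2 * ‖Gr A W y y‖ ^ 2 := by
  rw [KK_symm hA, KK_eq_gw hA hW]

theorem kp_eq (z : ι) : Stat.kp A W z y * (mm A W z * Sf A W y + ‖gw A W y z‖ ^ 2) =
    ‖gw A W y z‖ ^ 2 := by
  have hg0 : 0 < ‖Gr A W y y‖ := norm_pos_iff.2 (Gr_self_ne_zero hA hW y)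
  have hg : 0 < ‖Gr A W y y‖ ^ 2 := pow_pos hg0 2
  have hm := mm_pos hA hW z
  have hS := Sf_pos hA hW y
  have hd : 0 < mm A W z * Sf A W y + ‖gw A W y z‖ ^ 2 := by positivity
  have h1 : mm A W z * mm A W y + KK A W z y =
      (mm A W z * Sf A W y + ‖gw A W y z‖ ^ 2) * ‖Gr A W y y‖ ^ 2 := by
    rw [KK_gw hA hW, mm_eq_Sf hA hW y]
    ring
  rw [Stat.kp, h1, KK_gw hA hW]
  field_simp

theorem mk_le (t : ℝ) (z : ι) :
    mm A (Wt W y t) z * Sf A W y * Stat.kp A W z y ≤ ‖gw A W y z‖ ^ 2 := by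
  have h1 := mm_t_le hA hW y t z
  have h2 := kp_eq hA hW y z
  have h3 := Stat.kp_nonneg hA hW z y
  nlinarith [mul_le_mul_of_nonneg_right h1 h3]

theorem kp_half (t : ℝ) (z : ι) : Stat.kp A W z y ≤ 2 * Stat.kp A (Wt W y t) z y := by
  have hW' := Wt_neg hW y t
  have h1 := mm_t_le hA hW y t z
  have h2 := kp_eq hA hW y z
  have h3 := kp_eq hA hW' y z
  rw [Sf_t hA hW, gw_t hA hW] at h3
  have h4 := Stat.kp_nonneg hA hW z y
  have h5 := Stat.kp_nonneg hA hW' z y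
  have hm := mm_pos hA hW z
  have hm' := mm_pos hA hW' z
  have hS := Sf_pos hA hW y
  set c := ‖gw A W y z‖ ^ 2 with hc
  have hc0 : 0 ≤ c := sq_nonneg _
  set k := Stat.kp A W z y with hk
  set k' := Stat.kp A (Wt W y t) z y with hk'
  set u := mm A W z * Sf A W y with hu
  set u' := mm A (Wt W y t) z * Sf A W y with hu'
  have hu0 : 0 < u := mul_pos hm hS
  -- k (u + c) = c, k' (u' + c) = c, u' ≤ u + c
  have h6 : k * (u + c) ≤ 2 * k' * (u + c) := by
    have : u' + c ≤ 2 * (u + c) := by linarith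
    calc k * (u + c) = k' * (u' + c) := h2.trans h3.symm
      _ ≤ k' * (2 * (u + c)) := mul_le_mul_of_nonneg_left this h5
      _ = _ := by ring
  exact le_of_mul_le_mul_right h6 (by linarith)

/-- (P1) -/
theorem P1 (t : ℝ) (z : ι) :
    Sf A W y ^ 2 * Stat.kp A W z y ^ 2 * ‖Tm A (Wt W y t) a z z‖ ^ 2 *
      ‖Gr A (Wt W y t) y y‖ ^ 2 ≤
    ‖gw A W y z‖ ^ 2 * (KK A (Wt W y t) z y * muf A (Wt W y t) a z ^ 2) := by
  have hW' := Wt_neg hW y t
  rw [KK_gw hA hW', gw_t hA hW, Tm_self hA hW', Complex.norm_real, Real.norm_eq_abs, sq_abs,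
    mul_pow]
  have h1 := mk_le hA hW y t z
  have h0 : 0 ≤ mm A (Wt W y t) z * Sf A W y * Stat.kp A W z y :=
    mul_nonneg (mul_pos (mm_pos hA hW' z) (Sf_pos hA hW y)).le (Stat.kp_nonneg hA hW z y)
  have h2 := mul_self_le_mul_self h0 h1
  have h3 : 0 ≤ muf A (Wt W y t) a z ^ 2 * ‖Gr A (Wt W y t) y y‖ ^ 2 := by positivity
  calc _ = (mm A (Wt W y t) z * Sf A W y * Stat.kp A W z y) *
        (mm A (Wt W y t) z * Sf A W y * Stat.kp A W z y) *
        (muf A (Wt W y t) a z ^ 2 * ‖Gr A (Wt W y t) y y‖ ^ 2) := by ring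
    _ ≤ ‖gw A W y z‖ ^ 2 * ‖gw A W y z‖ ^ 2 *
        (muf A (Wt W y t) a z ^ 2 * ‖Gr A (Wt W y t) y y‖ ^ 2) :=
        mul_le_mul_of_nonneg_right h2 h3
    _ = _ := by ring

/-! ### coordinates `v = Re p + (Im p) x` -/

variable (c0 : ℝ)

/-- the pole in the variable `v` (`c0` = current value of the potential at `y`) -/
noncomputable def pole (A : Matrix ι ι ℝ) (W : ι → ℂ) (y : ι) (c0 : ℝ) : ℂ :=
  (c0 : ℂ) - (Gr A W y y)⁻¹

theorem inv_im : ((Gr A W y y)⁻¹).im = -Sf A W y := by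
  have h0 := Gr_self_ne_zero hA hW y
  have h1 : 0 < ‖Gr A W y y‖ ^ 2 := pow_pos (norm_pos_iff.2 h0) 2
  rw [Complex.inv_im, Complex.normSq_eq_norm_sq, ← circ hA hW y]
  field_simp

theorem pole_im : (pole A W y c0).im = Sf A W y := by
  rw [pole, Complex.sub_im, Complex.ofReal_im, inv_im hA hW]
  ring

theorem pole_t (t : ℝ) : pole A (Wt W y t) y (c0 + t) = pole A W y c0 := by
  rw [pole, pole, inv_t hA hW]
  push_cast
  ring

theorem inv_v (v : ℝ) : (Gr A (Wt W y (v - c0)) y y)⁻¹ = (v : ℂ) - pole A W y c0 := by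
  rw [inv_t hA hW, pole]
  push_cast
  ring

theorem norm_gam_v (v : ℝ) :
    ‖Gr A (Wt W y (v - c0)) y y‖ ^ 2 = 1 / ‖(v : ℂ) - pole A W y c0‖ ^ 2 := by
  rw [← inv_v hA hW, norm_inv, inv_pow, one_div, inv_inv]

/-- the circle coordinate of `v` -/
noncomputable def xc (A : Matrix ι ι ℝ) (W : ι → ℂ) (y : ι) (c0 v : ℝ) : ℝ :=
  (v - (pole A W y c0).re) / (pole A W y c0).im

theorem gam_xi (v : ℝ) : Gr A (Wt W y (v - c0)) y y = xi (xc A W y c0 v) / Sf A W y := by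
  have hS := Sf_pos hA hW y
  have hS' : (Sf A W y : ℂ) ≠ 0 := by exact_mod_cast hS.ne'
  rw [← inv_inv (Gr A (Wt W y (v - c0)) y y), inv_v hA hW, xi, xc, pole_im hA hW]
  rw [div_eq_mul_inv, ← mul_inv]
  congr 1
  apply Complex.ext
  · simp only [Complex.sub_re, Complex.ofReal_re, Complex.mul_re, Complex.I_re, Complex.sub_im,
      Complex.ofReal_im, Complex.I_im]
    push_cast
    field_simp
    ring
  · simp only [Complex.sub_im, Complex.ofReal_im, Complex.mul_im, Complex.sub_re, Complex.ofReal_re,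
      Complex.I_re, Complex.I_im, pole_im hA hW]
    ring

theorem Tm_TT (v : ℝ) (z w : ι) : Tm A (Wt W y (v - c0)) a z w =
    TT (Tm A W a z w - Gr A W y y * (Rq A W a y z * gw A W y w) -
        conj (Gr A W y y * (Rq A W a y w * gw A W y z)))
      (Rq A W a y z * gw A W y w / Sf A W y) (conj (Rq A W a y w * gw A W y z) / Sf A W y)
      (xc A W y c0 v) := by
  rw [Tm_t hA hW, gam_xi hA hW, TT]
  simp only [map_sub, map_mul, map_div₀, Complex.conj_ofReal]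
  ring

theorem Gr_GG (v : ℝ) (z w : ι) : Gr A (Wt W y (v - c0)) z w =
    GG (Gr A W z w - Gr A W y y * (gw A W y z * gw A W y w))
      (gw A W y z * gw A W y w / Sf A W y) (xc A W y c0 v) := by
  rw [Gr_t hA hW, gam_xi hA hW, GG]
  ring

end

end P365T2.H216
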