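import Vale.Agent.P365.T2.C0844
import Vale.Agent.P365.T2.H963.ContUps
import Vale.Agent.P365.T2.H789.AvErr

/-!
# P365-T2, row U (centre route), generic part: the derivative of `Av UpsG` and the lower bound of
its linear part (helper216)
-/

set_option linter.all false

namespace P365T2.H216

open P365L P365O P365T1 P365L.TL Matrix Complex MeasureTheory Filter Topology Set
open Vale.Agent.P365.J376 P365L.T2.Path P365T2.H844 Vale.Agent.P365.T2.H789
open P365T2.H37 (wk HH HD rho)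
open scoped ComplexConjugate RealInnerProductSpace

/-! ### averages of functionals continuous on the lower half planes -/

section av

variable {ι : Type*} [Fintype ι] [DecidableEq ι] {Λ : Type*} [Fintype Λ] {p : Λ → ℝ}
  {ν : Λ → Measure ℝ} {E : ℝ} {e : (ι → Λ) → ι → ℝ} {G G' : (ι → Λ) → (ι → ℂ) → ℝ}

theorem avc_int [∀ k, IsProbabilityMeasure (ν k)] {R : ℝ} (hR : ∀ k, ν k (Icc (-R) R)ᶜ = 0)
    (he : ∀ l x, 0 < e l x) (hG : ∀ l, ContinuousOn (G l) (LH ι)) (l : ι → Λ) :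
    Integrable (fun v => G l (WV E (e l) v)) (Measure.pi fun x => ν (l x)) :=
  integrable_of_continuousOn (hG l) (fun x => hR (l x)) (he l)

theorem avc_add [∀ k, IsProbabilityMeasure (ν k)] {R : ℝ} (hR : ∀ k, ν k (Icc (-R) R)ᶜ = 0)
    (he : ∀ l x, 0 < e l x) (hG : ∀ l, ContinuousOn (G l) (LH ι))
    (hG' : ∀ l, ContinuousOn (G' l) (LH ι)) :
    AvG p ν E e (fun l W => G l W + G' l W) = AvG p ν E e G + AvG p ν E e G' := by
  unfold AvG
  rw [← Finset.sum_add_distrib]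
  refine Finset.sum_congr rfl fun l _ => ?_
  rw [← mul_add]
  congr 1
  exact integral_add (avc_int hR he hG l) (avc_int hR he hG' l)

theorem avc_const_mul (c : ℝ) : AvG p ν E e (fun l W => c * G l W) = c * AvG p ν E e G := by
  unfold AvG Ex
  rw [Finset.mul_sum]
  refine Finset.sum_congr rfl fun l _ => ?_
  rw [integral_const_mul]
  ring

theorem avc_mono [∀ k, IsProbabilityMeasure (ν k)] (hp : ∀ k, 0 ≤ p k) {R : ℝ}
    (hR : ∀ k, ν k (Icc (-R) R)ᶜ = 0) (he : ∀ l x, 0 < e l x)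
    (hG : ∀ l, ContinuousOn (G l) (LH ι)) (hG' : ∀ l, ContinuousOn (G' l) (LH ι))
    (h : ∀ l, ∀ W ∈ LH ι, (∀ x, -(W x).im = e l x) → G l W ≤ G' l W) :
    AvG p ν E e G ≤ AvG p ν E e G' := by
  refine Finset.sum_le_sum fun l _ => mul_le_mul_of_nonneg_left ?_
    (Finset.prod_nonneg fun x _ => hp _)
  exact integral_mono (avc_int hR he hG l) (avc_int hR he hG' l) fun v =>
    h l _ (WV_mem_LH (he l) v) fun x => by rw [WV_eq_Wp, Vale.Agent.P365.J376.Wp_im, neg_neg]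

theorem avc_congr (h0 : ∀ l x, 0 < e l x)
    (h : ∀ l, ∀ W ∈ LH ι, (∀ x, -(W x).im = e l x) → G l W = G' l W) :
    AvG p ν E e G = AvG p ν E e G' := by
  refine Finset.sum_congr rfl fun l _ => ?_
  congr 1
  unfold Ex
  refine integral_congr_ae (Eventually.of_forall fun v => ?_)
  exact h l _ (WV_mem_LH (h0 l) v) fun x => by rw [WV_eq_Wp, Vale.Agent.P365.J376.Wp_im, neg_neg]

theorem avc_nonneg (hp : ∀ k, 0 ≤ p k) (he : ∀ l x, 0 < e l x)
    (h : ∀ l, ∀ W ∈ LH ι, 0 ≤ G l W) : 0 ≤ AvG p ν E e G :=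
  Finset.sum_nonneg fun l _ => mul_nonneg (Finset.prod_nonneg fun x _ => hp _)
    (integral_nonneg fun v => h l _ (WV_mem_LH (he l) v))

/-- Cauchy-Schwarz -/
theorem avc_sqrt [∀ k, IsProbabilityMeasure (ν k)] (hp : ∀ k, 0 ≤ p k) {R : ℝ}
    (hR : ∀ k, ν k (Icc (-R) R)ᶜ = 0) (he : ∀ l x, 0 < e l x)
    (hG : ∀ l, ContinuousOn (G l) (LH ι)) (hG' : ∀ l, ContinuousOn (G' l) (LH ι))
    (h0 : ∀ l, ∀ W ∈ LH ι, 0 ≤ G l W) (h0' : ∀ l, ∀ W ∈ LH ι, 0 ≤ G' l W) :
    AvG p ν E e (fun l W => Real.sqrt (G l W) * Real.sqrt (G' l W)) ≤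
      Real.sqrt (AvG p ν E e G) * Real.sqrt (AvG p ν E e G') :=
  sum_int_sqrt_le Finset.univ (c := fun l : ι → Λ => ∏ x, p (l x))
    (fun l _ => Finset.prod_nonneg fun x _ => hp _)
    (μ := fun l : ι → Λ => Measure.pi fun x => ν (l x))
    (a := fun l v => G l (WV E (e l) v)) (b := fun l v => G' l (WV E (e l) v))
    (fun l _ => Eventually.of_forall fun v => h0 l _ (WV_mem_LH (he l) v))
    (fun l _ => Eventually.of_forall fun v => h0' l _ (WV_mem_LH (he l) v))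
    (fun l _ => avc_int hR he hG l) (fun l _ => avc_int hR he hG' l)

end av

/-! ### smoothness and derivatives of `UpsG` -/

section gen

variable {E' : Type*} [NormedAddCommGroup E'] [InnerProductSpace ℝ E']
variable {ι : Type*} [Fintype ι] [DecidableEq ι] {Φ : ι → E'} {A : Matrix ι ι ℝ}

theorem contDiffOn_Gg {n : WithTop ℕ∞} (hA : A.IsSymm) (J k : ℕ) (x : ι) {ε : ℝ} (hε : 0 < ε) :
    ContDiffOn ℝ n (fun W : ι → ℂ => Gg ε (ur Φ (TT A W) J k x)) (LH ι) := by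
  unfold Gg
  exact (((contDiffOn_ur_add hA J k x ε).mul ((contDiffOn_ur_add hA J k x ε).log
    fun W hW => ur_add_ne hA hW J k x hε)).sub (contDiffOn_ur hA J k x)).sub contDiffOn_const

theorem contDiffOn_UpsG {n : WithTop ℕ∞} (hA : A.IsSymm) (J : ℕ) {ε : ℝ} (hε : 0 < ε) :
    ContDiffOn ℝ n (fun W : ι → ℂ => UpsG Φ A W ε J) (LH ι) :=
  (ContDiffOn.sum fun x _ => ContDiffOn.sum fun k _ =>
    (contDiffOn_const.mul (contDiffOn_pr hA x)).mul (contDiffOn_Gg hA J k x hε)).neg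

theorem contDiffOn_LinU {n : WithTop ℕ∞} (hA : A.IsSymm) {ε : ℝ} (hε : 0 < ε) (J k : ℕ)
    (y x : ι) : ContDiffOn ℝ n (fun W : ι → ℂ => LinU Φ A W ε J k y x) (LH ι) := by
  have hlog : ContDiffOn ℝ n (fun W : ι → ℂ => Real.log (ur Φ (TT A W) J k x + ε)) (LH ι) :=
    (contDiffOn_ur_add hA J k x ε).log fun W hW => ur_add_ne hA hW J k x hε
  unfold LinU
  by_cases h : x = y
  · simp only [if_pos h]
    exact (contDiffOn_const.mul (contDiffOn_pr hA x)).mul
      ((contDiffOn_Gg hA J k x hε).sub (((contDiffOn_TTpr hA x x).mul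
        (contDiffOn_ur hA J k x)).mul hlog))
  · simp only [if_neg h]
    exact (hlog.mul ((contDiffOn_TT hA x y).mul
      ((contDiffOn_Pw hA J k y x).sub contDiffOn_const))).neg

/-- absorption derivative of `UpsG` -/
theorem dI_UpsG (hA : A.IsSymm) {ε : ℝ} (hε : 0 < ε) (J : ℕ) (z : ι) {W : ι → ℂ}
    (hW : W ∈ LH ι) :
    dI (fun W => UpsG Φ A W ε J) z W =
      -∑ x, ∑ k ∈ Finset.range (J + 2), dUG A W Φ ε J k z x := by
  choose ll hll using fun (x : ι) (k : ℕ) => gen_upsG (Φ := Φ) hA hε J k z x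
  have h1 := (HasGen.sum Finset.univ fun x _ =>
    HasGen.sum (Finset.range (J + 2)) fun k _ => hll x k).neg
  exact dI_eq (contDiffOn_UpsG hA J hε) hW (h1.he W hW)

/-! ### the two parts of the drift -/

/-- linear part of the drift, weights `om` -/
noncomputable def LinS (Φ : ι → E') (A : Matrix ι ι ℝ) (ε : ℝ) (J : ℕ) (om : ι → ℝ)
    (W : ι → ℂ) : ℝ :=
  ∑ z, om z * ∑ x, ∑ k ∈ Finset.range (J + 2), LinU Φ A W ε J k z x

/-- excess over the circle means, weights `om` -/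
noncomputable def CXS (Φ : ι → E') (A : Matrix ι ι ℝ) (ε : ℝ) (J : ℕ) (om : ι → ℝ)
    (W : ι → ℂ) : ℝ :=
  ∑ z, om z * (2 * ((-(W z).im) * mm A W z) *
    ∑ x, ∑ k ∈ Finset.range (J + 2), CX A W Φ ε J k z x)

theorem LinS_add_CXS (hA : A.IsSymm) {ε : ℝ} (hε : 0 < ε) (J : ℕ) (om : ι → ℝ) {W : ι → ℂ}
    (hW : W ∈ LH ι) :
    LinS Φ A ε J om W + CXS Φ A ε J om W =
      ∑ z, om z * ((W z).im * dI (fun W => UpsG Φ A W ε J) z W) := by
  unfold LinS CXS
  rw [← Finset.sum_add_distrib]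
  refine Finset.sum_congr rfl fun z _ => ?_
  rw [dI_UpsG hA hε J z hW, ← mul_add]
  congr 1
  rw [Finset.mul_sum, mul_neg, ← neg_mul, Finset.mul_sum, ← Finset.sum_add_distrib]
  refine Finset.sum_congr rfl fun x _ => ?_
  rw [Finset.mul_sum, Finset.mul_sum, ← Finset.sum_add_distrib]
  refine Finset.sum_congr rfl fun k _ => ?_
  exact (c0_ups hA hW ε J k z x).symm

theorem continuousOn_LinS (hA : A.IsSymm) {ε : ℝ} (hε : 0 < ε) (J : ℕ) (om : ι → ℝ) :
    ContinuousOn (LinS Φ A ε J om) (LH ι) := by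
  unfold LinS
  exact continuousOn_finset_sum _ fun z _ => continuousOn_const.mul
    (continuousOn_finset_sum _ fun x _ => continuousOn_finset_sum _ fun k _ =>
      (contDiffOn_LinU (n := 0) hA hε J k z x).continuousOn)

theorem continuousOn_CXS (hA : A.IsSymm) {ε : ℝ} (hε : 0 < ε) (J : ℕ) (om : ι → ℝ) :
    ContinuousOn (CXS Φ A ε J om) (LH ι) := by
  have h1 : ContinuousOn (fun W : ι → ℂ =>
      (∑ z, om z * ((W z).im * dI (fun W => UpsG Φ A W ε J) z W)) - LinS Φ A ε J om W)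
      (LH ι) := by
    refine ContinuousOn.sub (continuousOn_finset_sum _ fun z _ => continuousOn_const.mul
      (ContinuousOn.mul ?_ (continuousOn_dI (contDiffOn_UpsG hA J hε) z)))
      (continuousOn_LinS hA hε J om)
    exact (Complex.continuous_im.comp (continuous_apply z)).continuousOn
  refine h1.congr fun W hW => ?_
  have := LinS_add_CXS (Φ := Φ) hA hε J om hW
  simp only
  linarith

section flow

variable {Λ : Type*} [Fintype Λ] {p : Λ → ℝ} {ν : Λ → Measure ℝ} {E : ℝ}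

/-- **the derivative of the mean entropy** -/
theorem hasDerivAt_Av_UpsG (hA : A.IsSymm) [∀ k, IsProbabilityMeasure (ν k)] {R : ℝ}
    (hR : ∀ k, ν k (Icc (-R) R)ᶜ = 0) {u w : (ι → Λ) → ι → ℝ} (hu : ∀ l x, 0 < u l x)
    (hw : ∀ l x, 0 ≤ w l x) {ε : ℝ} (hε : 0 < ε) (J : ℕ) (τ : ℝ) :
    HasDerivAt (fun τ => AvG p ν E (eT u w τ) fun _ V => UpsG Φ A V ε J)
      (AvG p ν E (eT u w τ) (fun l V => LinS Φ A ε J (fun x => wT w τ l x / eT u w τ l x) V) +
        AvG p ν E (eT u w τ)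
          (fun l V => CXS Φ A ε J (fun x => wT w τ l x / eT u w τ l x) V)) τ := by
  have h := hasDerivAt_AvG_stage (p := p) (ν := ν) (E := E)
    (Ψ := fun _ V => UpsG Φ A V ε J) (fun _ => contDiffOn_UpsG hA J hε) hR hu hw τ
  have hpos : ∀ l x, 0 < eT u w τ l x := fun l x => by
    have := mul_nonneg (Real.exp_pos (-τ)).le (hw l x)
    unfold eT
    linarith [hu l x]
  refine HasDerivAt.congr_deriv h ?_
  rw [← avc_add hR hpos (fun l => continuousOn_LinS hA hε J _)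
    (fun l => continuousOn_CXS hA hε J _)]
  rw [show -(AvG p ν E (fun l x => u l x + Real.exp (-τ) * w l x) fun l W =>
        ∑ x, Real.exp (-τ) * w l x * dI (fun V => UpsG Φ A V ε J) x W) =
      (-1) * (AvG p ν E (eT u w τ) fun l W =>
        ∑ x, Real.exp (-τ) * w l x * dI (fun V => UpsG Φ A V ε J) x W) by
      rw [neg_one_mul]; rfl, ← avc_const_mul]
  refine avc_congr hpos fun l W hW hWe => ?_
  rw [LinS_add_CXS hA hε J _ hW, Finset.mul_sum]
  refine Finset.sum_congr rfl fun x _ => ?_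
  have h1 : (W x).im = -eT u w τ l x := by rw [← hWe x, neg_neg]
  have h2 := (hpos l x).ne'
  rw [h1]
  unfold wT
  field_simp

theorem continuous_Av_UpsG (hA : A.IsSymm) [∀ k, IsProbabilityMeasure (ν k)] {R : ℝ}
    (hR : ∀ k, ν k (Icc (-R) R)ᶜ = 0) {u w : (ι → Λ) → ι → ℝ} (hu : ∀ l x, 0 < u l x)
    (hw : ∀ l x, 0 ≤ w l x) {ε : ℝ} (hε : 0 < ε) (J : ℕ) :
    Continuous fun τ => AvG p ν E (eT u w τ) fun _ V => UpsG Φ A V ε J :=
  continuous_iff_continuousAt.2 fun τ => (hasDerivAt_Av_UpsG hA hR hu hw hε J τ).continuousAt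

/-! ### the linear part from below -/

/-- **lower bound of the mean linear part** -/
theorem Av_LinS_ge (hA : A.IsSymm) [∀ k, IsProbabilityMeasure (ν k)] (hp : ∀ k, 0 ≤ p k) {R : ℝ}
    (hR : ∀ k, ν k (Icc (-R) R)ᶜ = 0) {e : (ι → Λ) → ι → ℝ} (he : ∀ l x, 0 < e l x)
    {om : (ι → Λ) → ι → ℝ} (ho : ∀ l x, 0 ≤ om l x) (ho1 : ∀ l x, om l x ≤ 1)
    {T : ℝ} (hT : 0 ≤ T) {J : ℕ} (hJ : 1 ≤ J) (ht : ∀ x y, tt Φ x y = 0 ∨ 1 ≤ tt Φ x y)
    (ht4 : ∀ x y, tt Φ x y ≤ 4 ^ J) :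
    (1 / 2) * AvG p ν E e (fun _ V => Pos Φ (TT A V) (Real.exp (-T)) J) -
      21 * AvG p ν E e (fun _ V => ∑ v, pr (TT A V) v * Vr Φ (TT A V) v) -
      2 * (T + 2) * (Real.sqrt (AvG p ν E e fun _ V => ∑ v, pr (TT A V) v * Vr Φ (TT A V) v) *
        Real.sqrt (AvG p ν E e fun l V =>
          ∑ v, om l v * pr (TT A V) v * ‖mur Φ (TT A V) v‖ ^ 2)) -
      (T + 2) * AvG p ν E e (fun l V => ∑ v, (1 - om l v) * pr (TT A V) v * Vr Φ (TT A V) v) ≤
    AvG p ν E e (fun l V => LinS Φ A (Real.exp (-T)) J (om l) V) := by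
  have hε := Real.exp_pos (-T)
  set P : (ι → Λ) → (ι → ℂ) → ℝ := fun _ V => Pos Φ (TT A V) (Real.exp (-T)) J with hP
  set D : (ι → Λ) → (ι → ℂ) → ℝ := fun _ V => ∑ v, pr (TT A V) v * Vr Φ (TT A V) v with hD
  set L : (ι → Λ) → (ι → ℂ) → ℝ := fun l V =>
    ∑ v, om l v * pr (TT A V) v * ‖mur Φ (TT A V) v‖ ^ 2 with hL
  set Z : (ι → Λ) → (ι → ℂ) → ℝ := fun l V =>
    ∑ v, (1 - om l v) * pr (TT A V) v * Vr Φ (TT A V) v with hZ
  have cP : ∀ l, ContinuousOn (P l) (LH ι) := fun l =>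
    (contDiffOn_Pos (n := 0) hA J hε).continuousOn
  have cD : ∀ l, ContinuousOn (D l) (LH ι) := fun l => continuousOn_finset_sum _ fun v _ =>
    (contDiffOn_pr (n := 0) hA v).continuousOn.mul (contDiffOn_Vr (n := 0) hA v).continuousOn
  have cL : ∀ l, ContinuousOn (L l) (LH ι) := fun l => continuousOn_finset_sum _ fun v _ =>
    (continuousOn_const.mul (contDiffOn_pr (n := 0) hA v).continuousOn).mul
      (contDiffOn_mur_sq (n := 0) hA v).continuousOn
  have cZ : ∀ l, ContinuousOn (Z l) (LH ι) := fun l => continuousOn_finset_sum _ fun v _ =>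
    (continuousOn_const.mul (contDiffOn_pr (n := 0) hA v).continuousOn).mul
      (contDiffOn_Vr (n := 0) hA v).continuousOn
  have pD : ∀ l, ∀ W ∈ LH ι, 0 ≤ D l W := fun l W hW => Finset.sum_nonneg fun v _ =>
    mul_nonneg (pr_TT_pos hA hW v).le (Vr_nonneg (TT_nonneg hW) (pr_TT_pos hA hW) v)
  have pL : ∀ l, ∀ W ∈ LH ι, 0 ≤ L l W := fun l W hW => Finset.sum_nonneg fun v _ =>
    mul_nonneg (mul_nonneg (ho l v) (pr_TT_pos hA hW v).le) (sq_nonneg _)
  have cS : ∀ l, ContinuousOn (fun W => Real.sqrt (D l W) * Real.sqrt (L l W)) (LH ι) :=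
    fun l => (cD l).sqrt.mul (cL l).sqrt
  have hCS := avc_sqrt (p := p) (E := E) hp hR he cD cL pD pL
  have hT2 : 0 ≤ 2 * (T + 2) := by linarith
  -- pathwise
  have key : ∀ l, ∀ W ∈ LH ι, (∀ x, -(W x).im = e l x) →
      (1 / 2) * P l W + (-21) * D l W + (-(2 * (T + 2))) * (Real.sqrt (D l W) *
        Real.sqrt (L l W)) + (-(T + 2)) * Z l W ≤ LinS Φ A (Real.exp (-T)) J (om l) W := by
    intro l W hW _
    have h1 := ups_lin (Φ := Φ) hA hW hT hJ ht ht4 (om := om l) (ho l) (ho1 l)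
    have h2 : ∑ v, om l v * pr (TT A W) v * Vr Φ (TT A W) v ≤ D l W :=
      Finset.sum_le_sum fun v _ => mul_le_mul_of_nonneg_right
        (mul_le_of_le_one_left (pr_TT_pos hA hW v).le (ho1 l v))
        (Vr_nonneg (TT_nonneg hW) (pr_TT_pos hA hW) v)
    have h3 : Real.sqrt (∑ v, om l v * pr (TT A W) v * Vr Φ (TT A W) v) * Real.sqrt (L l W) ≤
        Real.sqrt (D l W) * Real.sqrt (L l W) :=
      mul_le_mul_of_nonneg_right (Real.sqrt_le_sqrt h2) (Real.sqrt_nonneg _)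
    have h4 := mul_le_mul_of_nonneg_left h3 hT2
    unfold LinS
    simp only [hP, hD, hL, hZ] at *
    linarith
  have c1 : ∀ l, ContinuousOn (fun W => (1 / 2) * P l W) (LH ι) := fun l =>
    continuousOn_const.mul (cP l)
  have c2 : ∀ l, ContinuousOn (fun W => (-21) * D l W) (LH ι) := fun l =>
    continuousOn_const.mul (cD l)
  have c3 : ∀ l, ContinuousOn (fun W => (-(2 * (T + 2))) * (Real.sqrt (D l W) *
      Real.sqrt (L l W))) (LH ι) := fun l => continuousOn_const.mul (cS l)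
  have c4 : ∀ l, ContinuousOn (fun W => (-(T + 2)) * Z l W) (LH ι) := fun l =>
    continuousOn_const.mul (cZ l)
  have c12 : ∀ l, ContinuousOn (fun W => (1 / 2) * P l W + (-21) * D l W) (LH ι) := fun l =>
    (c1 l).add (c2 l)
  have c123 : ∀ l, ContinuousOn (fun W => (1 / 2) * P l W + (-21) * D l W +
      (-(2 * (T + 2))) * (Real.sqrt (D l W) * Real.sqrt (L l W))) (LH ι) := fun l =>
    (c12 l).add (c3 l)
  have c1234 : ∀ l, ContinuousOn (fun W => (1 / 2) * P l W + (-21) * D l W +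
      (-(2 * (T + 2))) * (Real.sqrt (D l W) * Real.sqrt (L l W)) + (-(T + 2)) * Z l W)
      (LH ι) := fun l => (c123 l).add (c4 l)
  have h5 := avc_mono (p := p) (E := E) hp hR he c1234
    (fun l => continuousOn_LinS (Φ := Φ) hA hε J (om l)) key
  rw [avc_add hR he c123 c4, avc_add hR he c12 c3, avc_add hR he c1 c2, avc_const_mul,
    avc_const_mul, avc_const_mul, avc_const_mul] at h5
  have h6 := mul_le_mul_of_nonneg_left hCS hT2
  refine le_trans ?_ h5
  linarith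

end flow

end gen

end P365T2.H216
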